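import Vale.Agent.P221.E.H903.W

/-!
# P221, part E (helper903): vanishing of `Ext¹`, exactness

* `eq_dR_of_cyc` : cocycles of an object with a unital action are coboundaries;
* `FreeOn.coboundary` : (T), `h1_of_fl`;
* `FreeOn.surj_prim` : (Σ);
* `FreeOn.u0`, `FreeOn.u1`, `FreeOn.u2`, `u3`.
-/

open CategoryTheory MonoidalCategory MonObj Limits Pretriangulated
open Vale.Agent.P251.S Vale.Agent.P251.T Vale.Agent.P251.M Vale.Agent.P093.Nak
open Vale.Agent.P221.H658 (rb ru comp_rb rb_rb rb_whiskerRight isIso_rb rb_ru)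

set_option linter.unusedSectionVars false
set_option linter.unusedVariables false

universe u

namespace Vale.Agent.P221.E

section mon

variable {T : Type u} [Category.{0} T] [MonoidalCategory T] {R : T} [MonObj R] {Y Z : T}

@[reassoc]
theorem ru_tensor (R : T) [MonObj R] (Q Y : T) :
    ru R Q ▷ Y ≫ (α_ Q R Y).hom = Q ◁ un R Y := by
  unfold ru un
  rw [comp_whiskerRight, Category.assoc, associator_naturality_middle,
    MonoidalCategory.whiskerLeft_comp]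
  simp

@[reassoc]
theorem un_tensor (R : T) [MonObj R] (Q Y : T) :
    un R Q ▷ Y ≫ (α_ R Q Y).hom = un R (Q ⊗ Y) := by
  unfold un
  rw [comp_whiskerRight, Category.assoc, associator_naturality_left]
  simp

/-- `(R ⊗ (R ⊗ R)) ⊗ Y ⟶ (R ⊗ R) ⊗ Y`, the action on the last two factors -/
def actP (R : T) {Y : T} (a : R ⊗ Y ⟶ Y) : (R ⊗ (R ⊗ R)) ⊗ Y ⟶ (R ⊗ R) ⊗ Y :=
  (α_ R (R ⊗ R) Y).hom ≫ R ◁ ((α_ R R Y).hom ≫ R ◁ a) ≫ (α_ R R Y).inv

theorem actP_ru (a : R ⊗ Y ⟶ Y) (ha : un R Y ≫ a = 𝟙 Y) :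
    (R ◁ ru R R) ▷ Y ≫ actP R a = 𝟙 _ := by
  unfold actP
  rw [associator_naturality_middle_assoc, ← MonoidalCategory.whiskerLeft_comp_assoc,
    ru_tensor_assoc, ← MonoidalCategory.whiskerLeft_comp, ha]
  simp

theorem actP_un (a : R ⊗ Y ⟶ Y) :
    (R ◁ un R R) ▷ Y ≫ actP R a = ((α_ R R Y).hom ≫ R ◁ a) ≫ ru R R ▷ Y := by
  unfold actP
  rw [associator_naturality_middle_assoc, ← MonoidalCategory.whiskerLeft_comp_assoc,
    un_tensor_assoc, ← un_naturality]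
  have h : ru R R ▷ Y = R ◁ un R Y ≫ (α_ R R Y).inv := by
    rw [← ru_tensor, Category.assoc, Iso.hom_inv_id, Category.comp_id]
  rw [h]
  simp

theorem actP_un' (a : R ⊗ Y ⟶ Y) :
    un R (R ⊗ R) ▷ Y ≫ actP R a = ((α_ R R Y).hom ≫ R ◁ a) ≫ un R R ▷ Y := by
  unfold actP
  rw [un_tensor_assoc, ← un_naturality_assoc]
  have h : un R R ▷ Y = un R (R ⊗ Y) ≫ (α_ R R Y).inv := by
    rw [← un_tensor, Category.assoc, Iso.hom_inv_id, Category.comp_id]
  rw [h]

theorem un_ru (R : T) [MonObj R] (Q : T) : un R Q ≫ R ◁ ru R Q = ru R Q ≫ un R (Q ⊗ R) := by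
  rw [un_naturality]

theorem un_un (R : T) [MonObj R] (Q : T) : un R Q ≫ R ◁ un R Q = un R Q ≫ un R (R ⊗ Q) := by
  rw [un_naturality]

theorem ru_un_ru (R : T) [MonObj R] : ru R R ≫ R ◁ un R R = ru R R ≫ R ◁ ru R R := by
  unfold ru un
  rw [Category.assoc, Category.assoc, ← MonoidalCategory.whiskerLeft_comp,
    ← MonoidalCategory.whiskerLeft_comp]
  have h : η[R] ≫ (λ_ R).inv ≫ η[R] ▷ R = η[R] ≫ (ρ_ R).inv ≫ R ◁ η[R] := by
    rw [leftUnitor_inv_naturality_assoc, rightUnitor_inv_naturality_assoc, whisker_exchange,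
      unitors_inv_equal]
  rw [h]

end mon

variable {T : Type u} [Category.{0} T] [Preadditive T] [HasZeroObject T]
    [HasShift T ℤ] [∀ n : ℤ, (shiftFunctor T n).Additive] [Pretriangulated T] [IsTriangulated T]
    [MonoidalCategory T] [SymmetricCategory T] [TensorTriangulated T] [MonoidalClosed T]
    [HasCoproducts.{0} T] [HasProducts.{0} T] [StableCat T]

variable {R X Y Z W : T} [MonObj R]

theorem dR_dRR (R : T) [MonObj R] : dR R ≫ dRR R = 0 := by
  unfold dR dRR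
  simp only [Preadditive.sub_comp, Preadditive.comp_sub, Preadditive.comp_add]
  rw [un_ru, un_un, ru_un_ru]
  abel

theorem cyc_comp_dR (g : W ⟶ R ⊗ X) : Cyc (g ≫ dR R ▷ X) := by
  unfold Cyc
  rw [Category.assoc, ← comp_whiskerRight, dR_dRR, MonoidalPreadditive.zero_whiskerRight,
    comp_zero]

theorem Cyc.sub {K K' : W ⟶ (R ⊗ R) ⊗ X} (h : Cyc K) (h' : Cyc K') : Cyc (K - K') := by
  unfold Cyc at *
  rw [Preadditive.sub_comp, h, h', sub_zero]

/-- **(H)** -/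
theorem eq_dR_of_cyc (a : R ⊗ Y ⟶ Y) (ha : un R Y ≫ a = 𝟙 Y) (K : W ⟶ (R ⊗ R) ⊗ Y)
    (hK : Cyc K) : K = (K ≫ (α_ R R Y).hom ≫ R ◁ a) ≫ dR R ▷ Y := by
  have h1 : (K ≫ dRR R ▷ Y) ≫ actP R a = 0 := by
    rw [hK, zero_comp]
  have hw : ∀ {Q Q' : T} (f g : Q ⟶ Q'), (f - g) ▷ Y = f ▷ Y - g ▷ Y := fun f g =>
    (tensorRight Y).map_sub
  unfold dRR at h1
  rw [MonoidalPreadditive.add_whiskerRight, hw] at h1
  simp only [Preadditive.comp_add, Preadditive.comp_sub, Preadditive.add_comp,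
    Preadditive.sub_comp, Category.assoc] at h1
  rw [actP_ru a ha, actP_un, actP_un', Category.comp_id] at h1
  unfold dR
  rw [hw]
  simp only [Preadditive.comp_sub, Category.assoc] at h1 ⊢
  rw [← sub_eq_zero, ← h1]
  abel

/-- a primitive element of an object with a unital action comes from the object -/
theorem eq_un_of_prim (a : R ⊗ Y ⟶ Y) (ha : un R Y ≫ a = 𝟙 Y) (g : W ⟶ R ⊗ Y)
    (hg : Prim g) : g = (g ≫ a) ≫ un R Y := by
  have h1 : (g ≫ dR R ▷ Y) ≫ (α_ R R Y).hom ≫ R ◁ a = 0 := by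
    rw [hg, zero_comp]
  have hw : ∀ {Q Q' : T} (f g : Q ⟶ Q'), (f - g) ▷ Y = f ▷ Y - g ▷ Y := fun f g =>
    (tensorRight Y).map_sub
  unfold dR at h1
  rw [hw] at h1
  simp only [Preadditive.comp_sub, Preadditive.sub_comp, Category.assoc] at h1
  rw [ru_tensor_assoc, un_tensor_assoc, ← MonoidalCategory.whiskerLeft_comp, ha,
    MonoidalCategory.whiskerLeft_id, Category.comp_id, ← un_naturality, sub_eq_zero] at h1
  rw [Category.assoc]
  exact h1

section main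

variable {G : OpSub R X}

theorem memW_fl_zero (b : FreeOn R W) (c : BasR R) {D : T} (hD : NiceD R D) (L : ModStr R D)
    (h : ∀ (A : T) (y : A ⟶ R ⊗ X), IsSphere A → G.mem y → y = 0) {f : W ⟶ D ⊗ X}
    (hf : G.memW f) : f = 0 :=
  b.uniqW L fun A hA w => (hD.tensorR c L).uniq hA _ fun B hB e =>
    h _ _ (isSphere_tensor hB hA) (hf A hA w B hB e)

/-- **(T)** -/
theorem FreeOn.coboundary (b : FreeOn R W) (c : BasR R) {m : ℕ} (hG : Fl (HasAct R) m G) :
    ∀ K : W ⟶ (R ⊗ R) ⊗ X, G.memW K → Cyc K →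
      ∃ g : W ⟶ R ⊗ X, G.memW g ∧ K = g ≫ dR R ▷ X := by
  have h1 := niceD_self R
  have h2 := h1.tensorR c (ModStr.self R)
  have h3 := h2.tensorR c (ModStr.free R R)
  induction hG with
  | zero h =>
    intro K hK _
    refine ⟨0, OpSub.memW_zero _, ?_⟩
    rw [zero_comp]
    exact memW_fl_zero b c h2 (ModStr.free R R) h hK
  | @succ m G Y q hY _ ih =>
    intro K hK hc
    obtain ⟨a, ha⟩ := hY
    obtain ⟨k, hk⟩ := b.exists_relW (q := q) h2 c (ModStr.free R R) hK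
    have hkc : Cyc k := by
      have h4 : q.RelW (K ≫ dRR R ▷ X) (k ≫ dRR R ▷ Y) := Quo.relW_map _ hk
      rw [hc] at h4
      exact b.relW_unique h3 c (ModStr.free R (R ⊗ R)) h4 q.relW_zero
    have h5 := eq_dR_of_cyc a ha k hkc
    obtain ⟨g₀, hg₀, hgk⟩ := b.surjW h1 c (ModStr.self R) q (k ≫ (α_ R R Y).hom ≫ R ◁ a)
    have h6 : G.memW (g₀ ≫ dR R ▷ X) := OpSub.memW_map _ hg₀
    have h7 : q.RelW (K - g₀ ≫ dR R ▷ X) (k - k) := by
      refine Quo.relW_sub hK h6 hk ?_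
      conv_rhs => rw [h5]
      exact Quo.relW_map _ hgk
    rw [sub_self] at h7
    have h8 : q.ker.memW (K - g₀ ≫ dR R ▷ X) :=
      (Quo.relW_zero_iff (OpSub.memW_sub hK h6)).1 h7
    obtain ⟨g₁, hg₁, h9⟩ := ih _ h8 (hc.sub (cyc_comp_dR g₀))
    refine ⟨g₁ + g₀, OpSub.memW_add (Quo.memW_of_ker hg₁) hg₀, ?_⟩
    rw [Preadditive.add_comp, ← h9, sub_add_cancel]

theorem OpSub.memW_top {D : T} (f : W ⟶ D ⊗ X) : (OpSub.top R X).memW f :=
  fun _ _ _ _ _ _ => trivial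

/-- `Ext¹ = 0` for filtered objects -/
theorem h1_of_fl (b : FreeOn R W) (c : BasR R) {m : ℕ}
    (hX : Fl (HasAct R) m (OpSub.top R X)) : H1 R W X := fun K hK => by
  obtain ⟨g, -, hg⟩ := b.coboundary c hX K (OpSub.memW_top K) hK
  exact ⟨g, hg⟩

/-- **(Σ)** -/
theorem FreeOn.surj_prim (b : FreeOn R W) (c : BasR R) {m : ℕ} (q : Quo G Y)
    (hk : Fl (HasAct R) m q.ker) (φ : W ⟶ R ⊗ Y) (hφ : Prim φ) :
    ∃ f : W ⟶ R ⊗ X, G.memW f ∧ Prim f ∧ q.RelW f φ := by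
  have h1 := niceD_self R
  obtain ⟨f₀, hf₀, hr⟩ := b.surjW h1 c (ModStr.self R) q φ
  have h2 : q.RelW (f₀ ≫ dR R ▷ X) 0 := by
    have := Quo.relW_map (dR R) hr
    rwa [hφ] at this
  have h3 := (Quo.relW_zero_iff (OpSub.memW_map _ hf₀)).1 h2
  obtain ⟨g, hg, h4⟩ := b.coboundary c hk _ h3 (cyc_comp_dR f₀)
  refine ⟨f₀ - g, OpSub.memW_sub hf₀ (Quo.memW_of_ker hg), ?_, ?_⟩
  · unfold Prim
    rw [Preadditive.sub_comp, ← h4, sub_self]
  · have h5 := Quo.relW_sub hf₀ (Quo.memW_of_ker hg) hr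
      ((Quo.relW_zero_iff (Quo.memW_of_ker hg)).2 hg)
    rwa [sub_zero] at h5

/-! ### The subgroups of `[W, X]` -/

theorem lin_un_self (a : W ⟶ X) :
    lin ((ModStr.self R).tensorRight X) (a ≫ un R X) = R ◁ a := by
  have h : R ◁ un R X ≫ (ModStr.free R X).act = 𝟙 (R ⊗ X) := by
    change R ◁ ((λ_ X).inv ≫ (η[R] ▷ X)) ≫ (α_ R R X).inv ≫ (μ[R] ▷ X) = _
    rw [MonoidalCategory.whiskerLeft_comp, Category.assoc, associator_inv_naturality_middle_assoc,
      ← comp_whiskerRight, MonObj.mul_one]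
    simp
  change R ◁ (a ≫ un R X) ≫ (ModStr.free R X).act = R ◁ a
  rw [MonoidalCategory.whiskerLeft_comp, Category.assoc, h, Category.comp_id]

theorem in_iff (c : BasR R) {a : W ⟶ X} : G.In a ↔ G.memW (a ≫ un R X) := by
  rw [memW_iff c (ModStr.self R)]
  refine forall_congr' fun A => forall_congr' fun hA => forall_congr' fun w => ?_
  rw [lin_un_self]
  exact ⟨OpSub.memD_of_mem hA, mem_of_memD_self hA⟩

theorem rel_iff (c : BasR R) {q : Quo G Y} {a : W ⟶ X} (ha : G.In a) {b : W ⟶ Y} :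
    q.Rel a b ↔ q.RelW (a ≫ un R X) (b ≫ un R Y) := by
  constructor
  · intro h
    refine relW_of_lin (niceD_self R) c (ModStr.self R) ((in_iff c).1 ha) fun A hA w => ?_
    rw [lin_un_self, lin_un_self, ← h A hA w]
    exact Quo.relD_of_mem hA (ha A hA w)
  · intro h A hA w
    have h1 := Quo.relD_map (ModStr.self R).act (h A hA w)
    rw [← lin_eq_up, ← lin_eq_up, lin_un_self, lin_un_self] at h1
    exact (niceD_self R).unique q hA (Quo.relD_of_mem hA (ha A hA w)) h1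

/-- **(U0)** -/
theorem FreeOn.u0 (b : FreeOn R W) (c : BasR R) (hX : Col R W X) (hG : Fl (HasAct R) 0 G)
    {a : W ⟶ X} (ha : G.In a) : a = 0 := by
  obtain ⟨h⟩ := hG
  have h1 := memW_fl_zero b c (niceD_self R) (ModStr.self R) h ((in_iff c).1 ha)
  have h2 : Prim (0 : W ⟶ R ⊗ X) := zero_comp
  obtain ⟨a', ha', hu⟩ := hX 0 h2
  rw [hu a h1, hu 0 zero_comp]

/-- **(U1)** -/
theorem FreeOn.u1 (b : FreeOn R W) (c : BasR R) (q : Quo G Y) (hY : HasAct R Y) {a : W ⟶ X}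
    (ha : G.In a) : ∃! b : W ⟶ Y, q.Rel a b := by
  have h1 := niceD_self R
  have h2 := h1.tensorR c (ModStr.self R)
  obtain ⟨y, hy⟩ := hY
  obtain ⟨g, hg⟩ := b.exists_relW (q := q) h1 c (ModStr.self R) ((in_iff c).1 ha)
  have hp : Prim g := by
    have h3 : q.RelW ((a ≫ un R X) ≫ dR R ▷ X) (g ≫ dR R ▷ Y) := Quo.relW_map _ hg
    have h4 : un R X ≫ dR R ▷ X = 0 := by
      unfold dR
      have hw : (ru R R - un R R) ▷ X = ru R R ▷ X - un R R ▷ X := (tensorRight X).map_sub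
      rw [hw, Preadditive.comp_sub, sub_eq_zero, ← cancel_mono (α_ R R X).hom, Category.assoc,
        Category.assoc, ru_tensor, un_tensor, un_un]
    rw [Category.assoc, h4, comp_zero] at h3
    exact b.relW_unique h2 c (ModStr.free R R) h3 q.relW_zero
  have h5 := eq_un_of_prim y hy g hp
  refine ⟨g ≫ y, (rel_iff c ha).2 (by rw [← h5]; exact hg), fun b' hb' => ?_⟩
  have h6 := b.relW_unique h1 c (ModStr.self R) hg ((rel_iff c ha).1 hb')
  rw [h6, Category.assoc, hy, Category.comp_id]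

/-- **(U2)** -/
theorem FreeOn.u2 (b : FreeOn R W) (c : BasR R) (hX : Col R W X) {m : ℕ} (q : Quo G Y)
    (hk : Fl (HasAct R) m q.ker) (y : W ⟶ Y) : ∃ a : W ⟶ X, G.In a ∧ q.Rel a y := by
  have h4 : ∀ Y : T, un R Y ≫ dR R ▷ Y = 0 := by
    intro Y
    unfold dR
    have hw : (ru R R - un R R) ▷ Y = ru R R ▷ Y - un R R ▷ Y := (tensorRight Y).map_sub
    rw [hw, Preadditive.comp_sub, sub_eq_zero, ← cancel_mono (α_ R R Y).hom, Category.assoc,
      Category.assoc, ru_tensor, un_tensor, un_un]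
  have h5 : Prim (y ≫ un R Y) := by
    unfold Prim
    rw [Category.assoc, h4, comp_zero]
  obtain ⟨f, hf, hp, hr⟩ := b.surj_prim c q hk _ h5
  obtain ⟨a, ha, -⟩ := hX f hp
  have h6 : G.In a := (in_iff c).2 (by rw [ha]; exact hf)
  exact ⟨a, h6, (rel_iff c h6).2 (by rw [ha]; exact hr)⟩

/-- **(U3)** -/
theorem u3 {q : Quo G Y} {a : W ⟶ X} (ha : G.In a) : q.Rel a 0 ↔ q.ker.In a := by
  unfold Quo.Rel OpSub.In
  refine forall_congr' fun A => forall_congr' fun hA => forall_congr' fun w => ?_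
  rw [MonoidalPreadditive.whiskerLeft_zero, comp_zero]
  exact ⟨fun h => ⟨ha A hA w, h⟩, fun h => h.2⟩

end main

end Vale.Agent.P221.E
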