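import Vale.Agent.P221.E.H903.N
import Vale.Agent.P221.E.H903.T
import Vale.Agent.P221.T.H769.DCb

/-!
# P221, part E (helper903): the homotopy groups of a filtered object are finitely generated

* `FinZp.ext` : extensions of finitely generated `ℤ_p`-modules;
* `OpSub.inSub G W` : the subgroup of `[W, X]` given by `G`;
* `finZp_inSub` : it is finitely generated over `ℤ_p` if `G` has a finite filtration with quotients
  `R_* Y`, `[W, Y]` finitely generated over `ℤ_p`; `finZp_of_fl`.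
-/

open CategoryTheory MonoidalCategory MonObj Limits Pretriangulated
open Vale.Agent.P251.T Vale.Agent.P251.M Vale.Agent.P251.S

set_option linter.unusedSectionVars false

universe u

namespace Vale.Agent.P221.E

open Vale.Agent.P221.T Vale.Agent.P221.T.H769

section alg

variable {p : ℕ} [Fact p.Prime]

/-- extensions of finitely generated `ℤ_p`-modules -/
theorem finZp_ext {K G H : Type} [AddCommGroup K] [AddCommGroup G] [AddCommGroup H]
    (hK : Uniq p K) (hH : Uniq p H) (i : K →+ G) (f : G →+ H) (hi : Function.Injective i)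
    (hf : Function.Surjective f) (hex : ∀ x, f x = 0 ↔ ∃ y, i y = x) (hKf : FinZp p K)
    (hHf : FinZp p H) : FinZp p G := by
  have hG : Uniq p G := hK.ext hH i f hi hf hex
  obtain ⟨MK, hMK⟩ := hKf
  obtain ⟨MH, hMH⟩ := hHf
  let M : Module ℤ_[p] G := zpMod hG
  refine ⟨M, ⟨?_⟩⟩
  let f' : G →ₗ[ℤ_[p]] H := linOfUniq hH f
  let i' : K →ₗ[ℤ_[p]] G := linOfUniq hG i
  refine Submodule.fg_of_fg_map_of_fg_inf_ker f' ?_ ?_
  · rw [Submodule.map_top, LinearMap.range_eq_top.2 (show Function.Surjective f' from hf)]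
    exact hMH.1
  · have h1 : (⊤ : Submodule ℤ_[p] G) ⊓ LinearMap.ker f' = Submodule.map i' ⊤ := by
      ext x
      rw [Submodule.mem_inf, LinearMap.mem_ker, Submodule.map_top, LinearMap.mem_range]
      constructor
      · intro h
        exact (hex x).1 h.2
      · intro h
        exact ⟨trivial, (hex x).2 h⟩
    rw [h1]
    exact hMK.1.map i'

theorem uniq_of_zero {G : Type} [AddCommGroup G] (h : ∀ x : G, x = 0) : Uniq p G := fun _ =>
  ⟨fun _ => 0, fun _ => (h _).trans (h _).symm, fun y _ => funext fun i => h (y i)⟩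

end alg

variable {T : Type u} [Category.{0} T] [Preadditive T] [HasZeroObject T]
    [HasShift T ℤ] [∀ n : ℤ, (shiftFunctor T n).Additive] [Pretriangulated T] [IsTriangulated T]
    [MonoidalCategory T] [SymmetricCategory T] [TensorTriangulated T] [MonoidalClosed T]
    [HasCoproducts.{0} T] [HasProducts.{0} T] [StableCat T]

variable {R X Y W : T}

/-- the subgroup of `[W, X]` given by `G` -/
def OpSub.inSub (G : OpSub R X) (W : T) : AddSubgroup (W ⟶ X) where
  carrier := {a | G.In a}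
  zero_mem' := fun A hA w => by
    rw [MonoidalPreadditive.whiskerLeft_zero, comp_zero]
    exact G.zero hA
  add_mem' {a b} ha hb := fun A hA w => by
    rw [MonoidalPreadditive.whiskerLeft_add, Preadditive.comp_add]
    exact G.add hA (ha A hA w) (hb A hA w)
  neg_mem' {a} ha := fun A hA w => by
    have h : R ◁ (-a) = -(R ◁ a) := (tensorLeft R).map_neg
    rw [h, Preadditive.comp_neg]
    exact G.neg hA (ha A hA w)

theorem OpSub.mem_inSub {G : OpSub R X} {a : W ⟶ X} : a ∈ G.inSub W ↔ G.In a := Iff.rfl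

theorem Quo.rel_add {G : OpSub R X} {q : Quo G Y} {a a' : W ⟶ X} {b b' : W ⟶ Y} (ha : G.In a)
    (ha' : G.In a') (h : q.Rel a b) (h' : q.Rel a' b') : q.Rel (a + a') (b + b') := by
  intro A hA w
  have hn : q.φ (-(w ≫ R ◁ a')) = -q.φ (w ≫ R ◁ a') := by
    have h1 := q.sub hA (G.zero hA) (ha' A hA w)
    rw [zero_sub, q.zero hA, zero_sub] at h1
    exact h1
  rw [MonoidalPreadditive.whiskerLeft_add, Preadditive.comp_add,
    MonoidalPreadditive.whiskerLeft_add, Preadditive.comp_add, ← h A hA w, ← h' A hA w]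
  have h2 := q.sub hA (ha A hA w) (G.neg hA (ha' A hA w))
  rw [sub_neg_eq_add, hn, sub_neg_eq_add] at h2
  exact h2

theorem Quo.rel_zero_iff {G : OpSub R X} {q : Quo G Y} {a : W ⟶ X} (ha : G.In a) :
    q.Rel a 0 ↔ q.ker.In a := by
  unfold Quo.Rel OpSub.In
  refine forall_congr' fun A => forall_congr' fun hA => forall_congr' fun w => ?_
  rw [MonoidalPreadditive.whiskerLeft_zero, comp_zero]
  exact ⟨fun h => ⟨ha A hA w, h⟩, fun h => h.2⟩

variable {p : ℕ} [Fact p.Prime] {𝒴 : T → Prop}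

/-- **The subgroup of `[W, X]` is finitely generated over `ℤ_p`.** -/
theorem finZp_inSub
    (hU0 : ∀ {G : OpSub R X}, Fl 𝒴 0 G → ∀ a : W ⟶ X, G.In a → a = 0)
    (hU1 : ∀ {G : OpSub R X} {Y : T} {m : ℕ} (q : Quo G Y), 𝒴 Y → Fl 𝒴 m q.ker →
      ∀ a : W ⟶ X, G.In a → ∃! b : W ⟶ Y, q.Rel a b)
    (hU2 : ∀ {G : OpSub R X} {Y : T} {m : ℕ} (q : Quo G Y), 𝒴 Y → Fl 𝒴 m q.ker →
      ∀ b : W ⟶ Y, ∃ a : W ⟶ X, G.In a ∧ q.Rel a b)
    (hY : ∀ Y, 𝒴 Y → Uniq p (W ⟶ Y)) (hf : ∀ Y, 𝒴 Y → FinZp p (W ⟶ Y)) {m : ℕ}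
    {G : OpSub R X} (h : Fl 𝒴 m G) : Uniq p (G.inSub W) ∧ FinZp p (G.inSub W) := by
  induction h with
  | zero h0 =>
    have h1 : ∀ x : OpSub.inSub _ W, x = 0 := fun x => Subtype.ext (hU0 (Fl.zero h0) x.1 x.2)
    exact ⟨uniq_of_zero h1, FinZp.of_zero h1⟩
  | @succ m G Y q hq hk ih =>
    choose θ hθ hu using fun a : G.inSub W => hU1 q hq hk a.1 a.2
    let f : G.inSub W →+ (W ⟶ Y) := AddMonoidHom.mk' θ fun a a' =>
      (hu (a + a') _ (Quo.rel_add a.2 a'.2 (hθ a) (hθ a'))).symm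
    let i : q.ker.inSub W →+ G.inSub W := AddSubgroup.inclusion fun a ha => fun A hA w =>
      (ha A hA w).1
    have hi : Function.Injective i := AddSubgroup.inclusion_injective _
    have hfs : Function.Surjective f := fun b => by
      obtain ⟨a, ha, hab⟩ := hU2 q hq hk b
      exact ⟨⟨a, ha⟩, (hu ⟨a, ha⟩ b hab).symm⟩
    have hex : ∀ x, f x = 0 ↔ ∃ y, i y = x := fun x => by
      constructor
      · intro hx
        have h1 : q.Rel x.1 (0 : W ⟶ Y) := by
          have h2 := hθ x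
          have h3 : θ x = 0 := hx
          rw [h3] at h2
          exact h2
        exact ⟨⟨x.1, (Quo.rel_zero_iff x.2).1 h1⟩, Subtype.ext rfl⟩
      · rintro ⟨y, rfl⟩
        exact (hu (i y) 0 ((Quo.rel_zero_iff (i y).2).2 y.2)).symm
    exact ⟨ih.1.ext (hY Y hq) i f hi hfs hex,
      finZp_ext ih.1 (hY Y hq) i f hi hfs hex ih.2 (hf Y hq)⟩

/-- **`[W, X]` is finitely generated over `ℤ_p`.** -/
theorem finZp_of_fl
    (hU0 : ∀ {G : OpSub R X}, Fl 𝒴 0 G → ∀ a : W ⟶ X, G.In a → a = 0)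
    (hU1 : ∀ {G : OpSub R X} {Y : T} {m : ℕ} (q : Quo G Y), 𝒴 Y → Fl 𝒴 m q.ker →
      ∀ a : W ⟶ X, G.In a → ∃! b : W ⟶ Y, q.Rel a b)
    (hU2 : ∀ {G : OpSub R X} {Y : T} {m : ℕ} (q : Quo G Y), 𝒴 Y → Fl 𝒴 m q.ker →
      ∀ b : W ⟶ Y, ∃ a : W ⟶ X, G.In a ∧ q.Rel a b)
    (hY : ∀ Y, 𝒴 Y → Uniq p (W ⟶ Y)) (hf : ∀ Y, 𝒴 Y → FinZp p (W ⟶ Y)) {m : ℕ}
    (h : Fl 𝒴 m (OpSub.top R X)) : FinZp p (W ⟶ X) := by
  refine FinZp.of_equiv (G' := (OpSub.top R X).inSub W) ?_ (finZp_inSub hU0 hU1 hU2 hY hf h).2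
  exact
    { toFun := fun a => ⟨a, fun A _ w => trivial⟩
      invFun := fun a => a.1
      left_inv := fun a => rfl
      right_inv := fun a => rfl
      map_add' := fun a b => rfl }

end Vale.Agent.P221.E
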