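import Vale.Agent.P221.E.H903.Push

/-!
# P221, part E (helper903): subobjects of `π_* (D ⊗ X)`, `D` a retract of a sum of suspensions of `R`

* naturality of `OpSub.memD`, `Quo.RelD`;
* for `d : AddR R D`: `AddR.unique`, `AddR.exists_relD`, `AddR.surj`, `Quo.relD_zero_iff`.
-/

open CategoryTheory MonoidalCategory MonObj Limits Pretriangulated
open Vale.Agent.P251.S Vale.Agent.P251.T Vale.Agent.P251.M Vale.Agent.P093.Nak

set_option linter.unusedSectionVars false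

universe u

namespace Vale.Agent.P221.E

variable {T : Type u} [Category.{0} T] [Preadditive T] [HasZeroObject T]
    [HasShift T ℤ] [∀ n : ℤ, (shiftFunctor T n).Additive] [Pretriangulated T] [IsTriangulated T]
    [MonoidalCategory T] [SymmetricCategory T] [TensorTriangulated T] [MonoidalClosed T]
    [HasCoproducts.{0} T] [HasProducts.{0} T] [StableCat T]

variable {R X Y : T} {G : OpSub R X} {S D D' A A' : T}

/-! ### Naturality -/

namespace OpSub

theorem neg (G : OpSub R X) (hA : IsSphere A) {y : A ⟶ R ⊗ X} (h : G.mem y) : G.mem (-y) := by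
  have := G.sub hA (G.zero hA) h
  rwa [zero_sub] at this

theorem add (G : OpSub R X) (hA : IsSphere A) {y y' : A ⟶ R ⊗ X} (h : G.mem y) (h' : G.mem y') :
    G.mem (y + y') := by
  have := G.sub hA h (G.neg hA h')
  rwa [sub_neg_eq_add] at this

theorem memD_zero (G : OpSub R X) (hA : IsSphere A) : G.memD (0 : A ⟶ D ⊗ X) := fun B hB e => by
  rw [push_zero']
  exact G.zero (isSphere_tensor hB hA)

theorem memD_sub (hA : IsSphere A) {z z' : A ⟶ D ⊗ X} (h : G.memD z) (h' : G.memD z') :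
    G.memD (z - z') := fun B hB e => by
  rw [push_sub]
  exact G.sub (isSphere_tensor hB hA) (h B hB e) (h' B hB e)

theorem memD_add (hA : IsSphere A) {z z' : A ⟶ D ⊗ X} (h : G.memD z) (h' : G.memD z') :
    G.memD (z + z') := fun B hB e => by
  rw [push_add]
  exact G.add (isSphere_tensor hB hA) (h B hB e) (h' B hB e)

theorem memD_sum (hA : IsSphere A) {I : Type} (s : Finset I) (z : I → (A ⟶ D ⊗ X))
    (h : ∀ i ∈ s, G.memD (z i)) : G.memD (∑ i ∈ s, z i) := by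
  classical
  induction s using Finset.induction_on with
  | empty =>
    rw [Finset.sum_empty]
    exact G.memD_zero hA
  | insert i s hi ih =>
    rw [Finset.sum_insert hi]
    exact memD_add hA (h i (Finset.mem_insert_self i s))
      (ih fun j hj => h j (Finset.mem_insert_of_mem hj))

theorem memD_comp (hA : IsSphere A) (hA' : IsSphere A') (u : A' ⟶ A) {z : A ⟶ D ⊗ X}
    (h : G.memD z) : G.memD (u ≫ z) := fun B hB e => by
  rw [push_comp_left]
  exact G.comp (isSphere_tensor hB hA) (isSphere_tensor hB hA') _ (h B hB e)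

theorem memD_map (f : D ⟶ D') {z : A ⟶ D ⊗ X} (h : G.memD z) : G.memD (z ≫ f ▷ X) :=
  fun B hB e => by
  rw [← push_whiskerLeft]
  exact h B hB _

theorem memD_push (hS : IsSphere S) (hA : IsSphere A) (e : S ⊗ D ⟶ D') {z : A ⟶ D ⊗ X}
    (h : G.memD z) : G.memD (push e z) := fun B hB e' => by
  rw [push_push]
  exact G.comp (isSphere_tensor (isSphere_tensor hB hS) hA)
    (isSphere_tensor hB (isSphere_tensor hS hA)) _ (h _ (isSphere_tensor hB hS) _)

theorem memD_of_mem (hA : IsSphere A) {y : A ⟶ R ⊗ X} (h : G.mem y) : G.memD y :=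
  fun B hB e => G.op hB hA e h

end OpSub

namespace Quo

variable {q : Quo G Y}

theorem relD_zero (q : Quo G Y) (hA : IsSphere A) : q.RelD (0 : A ⟶ D ⊗ X) 0 := fun B hB e => by
  rw [push_zero', push_zero', q.zero (isSphere_tensor hB hA)]

theorem relD_sub (hA : IsSphere A) {z z' : A ⟶ D ⊗ X} {t t' : A ⟶ D ⊗ Y} (hz : G.memD z)
    (hz' : G.memD z') (h : q.RelD z t) (h' : q.RelD z' t') : q.RelD (z - z') (t - t') :=
  fun B hB e => by
  rw [push_sub, push_sub, q.sub (isSphere_tensor hB hA) (hz B hB e) (hz' B hB e), h B hB e,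
    h' B hB e]

theorem relD_add (hA : IsSphere A) {z z' : A ⟶ D ⊗ X} {t t' : A ⟶ D ⊗ Y} (hz : G.memD z)
    (hz' : G.memD z') (h : q.RelD z t) (h' : q.RelD z' t') : q.RelD (z + z') (t + t') := by
  have h1 : q.RelD (0 - z') (0 - t') :=
    relD_sub hA (G.memD_zero hA) hz' (q.relD_zero hA) h'
  have h2 := relD_sub hA hz (OpSub.memD_sub hA (G.memD_zero hA) hz') h h1
  rwa [zero_sub, zero_sub, sub_neg_eq_add, sub_neg_eq_add] at h2

theorem relD_sum (hA : IsSphere A) {I : Type} (s : Finset I) (z : I → (A ⟶ D ⊗ X))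
    (t : I → (A ⟶ D ⊗ Y)) (hz : ∀ i ∈ s, G.memD (z i)) (h : ∀ i ∈ s, q.RelD (z i) (t i)) :
    q.RelD (∑ i ∈ s, z i) (∑ i ∈ s, t i) := by
  classical
  induction s using Finset.induction_on with
  | empty =>
    rw [Finset.sum_empty, Finset.sum_empty]
    exact q.relD_zero hA
  | insert i s hi ih =>
    rw [Finset.sum_insert hi, Finset.sum_insert hi]
    exact relD_add hA (hz i (Finset.mem_insert_self i s))
      (OpSub.memD_sum hA s z fun j hj => hz j (Finset.mem_insert_of_mem hj))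
      (h i (Finset.mem_insert_self i s))
      (ih (fun j hj => hz j (Finset.mem_insert_of_mem hj))
        fun j hj => h j (Finset.mem_insert_of_mem hj))

theorem relD_comp (hA : IsSphere A) (hA' : IsSphere A') (u : A' ⟶ A) {z : A ⟶ D ⊗ X}
    {t : A ⟶ D ⊗ Y} (hz : G.memD z) (h : q.RelD z t) : q.RelD (u ≫ z) (u ≫ t) :=
  fun B hB e => by
  rw [push_comp_left, push_comp_left, q.comp (isSphere_tensor hB hA) (isSphere_tensor hB hA') _
    (hz B hB e), h B hB e]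

theorem relD_map (f : D ⟶ D') {z : A ⟶ D ⊗ X} {t : A ⟶ D ⊗ Y} (h : q.RelD z t) :
    q.RelD (z ≫ f ▷ X) (t ≫ f ▷ Y) := fun B hB e => by
  rw [← push_whiskerLeft, ← push_whiskerLeft, h B hB]

theorem relD_push (hS : IsSphere S) (hA : IsSphere A) (e : S ⊗ D ⟶ D') {z : A ⟶ D ⊗ X}
    {t : A ⟶ D ⊗ Y} (hz : G.memD z) (h : q.RelD z t) : q.RelD (push e z) (push e t) :=
  fun B hB e' => by
  rw [push_push, push_push, q.comp (isSphere_tensor (isSphere_tensor hB hS) hA)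
    (isSphere_tensor hB (isSphere_tensor hS hA)) _ (hz _ (isSphere_tensor hB hS) _),
    h _ (isSphere_tensor hB hS)]

theorem relD_of_mem (hA : IsSphere A) {y : A ⟶ R ⊗ X} (h : G.mem y) : q.RelD y (q.φ y) :=
  fun B hB e => q.op hB hA e h

theorem relD_zero_iff {z : A ⟶ D ⊗ X} (hz : G.memD z) : q.RelD z 0 ↔ q.ker.memD z := by
  constructor
  · intro h B hB e
    exact ⟨hz B hB e, by rw [h B hB e, push_zero']⟩
  · intro h B hB e
    rw [push_zero']
    exact (h B hB e).2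

theorem memD_of_ker {z : A ⟶ D ⊗ X} (h : q.ker.memD z) : G.memD z := fun B hB e => (h B hB e).1

end Quo

/-! ### `D = S ⊗ R` -/

/-- the projections of a coproduct -/
noncomputable def cpr {I : Type} (V : I → T) (i : I) : (∐ V) ⟶ V i :=
  haveI := Classical.decEq I
  Sigma.desc fun j => if h : j = i then eqToHom (by rw [h]) else 0

theorem ι_cpr_self {I : Type} (V : I → T) (i : I) : Sigma.ι V i ≫ cpr V i = 𝟙 _ := by
  rw [cpr, Sigma.ι_desc, dif_pos rfl, eqToHom_refl]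

theorem ι_cpr_ne {I : Type} (V : I → T) {i j : I} (h : j ≠ i) : Sigma.ι V j ≫ cpr V i = 0 := by
  rw [cpr, Sigma.ι_desc, dif_neg h]

/-- the expansion of an element of the homotopy of a coproduct -/
theorem sum_cpr {I : Type} (V : I → T) {A Z : T} (hA : IsSphere A) (f : A ⟶ (∐ V) ⊗ Z) :
    ∃ s : Finset I, f = ∑ i ∈ s, (f ≫ cpr V i ▷ Z) ≫ Sigma.ι V i ▷ Z := by
  obtain ⟨s, g, hg⟩ := compact_sumR Z V hA f
  refine ⟨s, ?_⟩
  have h1 : ∀ i ∈ s, f ≫ cpr V i ▷ Z = g i := by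
    intro i hi
    rw [hg, Preadditive.sum_comp, Finset.sum_eq_single i]
    · rw [Category.assoc, ← comp_whiskerRight, ι_cpr_self, id_whiskerRight, Category.comp_id]
    · intro j _ hj
      rw [Category.assoc, ← comp_whiskerRight, ι_cpr_ne V hj, MonoidalPreadditive.zero_whiskerRight,
        comp_zero]
    · intro h
      exact absurd hi h
  conv_lhs => rw [hg]
  exact Finset.sum_congr rfl fun i hi => by rw [h1 i hi]

theorem eq_zero_of_push_isIso (hS : IsSphere S) (e : S ⊗ D ⟶ D') [IsIso e] {z : A ⟶ D ⊗ X}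
    (h : push e z = 0) : z = 0 := by
  unfold push at h
  have h1 : S ◁ z = 0 := by
    rw [← cancel_mono ((α_ S D X).inv ≫ e ▷ X), h, zero_comp]
  apply whiskerLeft_inj' hS
  rw [h1, MonoidalPreadditive.whiskerLeft_zero]

/-- `S' ⊗ (S ⊗ R) ⟶ R` -/
noncomputable def untw (R : T) {S S' : T} (u : S' ⊗ S ≅ 𝟙_ T) : S' ⊗ (S ⊗ R) ⟶ R :=
  (α_ S' S R).inv ≫ u.hom ▷ R ≫ (λ_ R).hom

instance (R : T) {S S' : T} (u : S' ⊗ S ≅ 𝟙_ T) : IsIso (untw R u) := by
  unfold untw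
  infer_instance

theorem push_leftUnitor (z : A ⟶ D ⊗ X) : push (λ_ D).hom z = (λ_ A).hom ≫ z := by
  unfold push
  have h : (α_ (𝟙_ T) D X).inv ≫ (λ_ D).hom ▷ X = (λ_ (D ⊗ X)).hom := by simp
  rw [h, leftUnitor_naturality]

theorem push_untw {S S' : T} (u : S' ⊗ S ≅ 𝟙_ T) (x : A ⟶ R ⊗ X) :
    push (untw R u) (push (𝟙 (S ⊗ R)) x) =
      (α_ S' S A).inv ≫ u.hom ▷ A ≫ (λ_ A).hom ≫ x := by
  rw [push_push]
  have h : (α_ S' S R).hom ≫ S' ◁ 𝟙 (S ⊗ R) ≫ untw R u = u.hom ▷ R ≫ (λ_ R).hom := by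
    unfold untw
    simp
  rw [h, push_whiskerRight, push_leftUnitor]

/-- an element of `π_* ((S ⊗ R) ⊗ X)` -/
theorem exists_push_id (hS : IsSphere S) (hA : IsSphere A) (g : A ⟶ (S ⊗ R) ⊗ X) :
    ∃ (A' : T) (_ : IsSphere A') (i : A ≅ S ⊗ A') (x : A' ⟶ R ⊗ X),
      g = i.hom ≫ push (𝟙 (S ⊗ R)) x := by
  obtain ⟨A', hA', i, x, hx⟩ := exists_desusp hS hA (g ≫ (α_ S R X).hom)
  refine ⟨A', hA', i, x, ?_⟩
  unfold push
  rw [id_whiskerRight, Category.comp_id, ← Category.assoc, ← hx, Category.assoc,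
    Iso.hom_inv_id, Category.comp_id]

theorem mem_of_memD (hS : IsSphere S) (hA : IsSphere A) (hA' : IsSphere A') (i : A ≅ S ⊗ A')
    (x : A' ⟶ R ⊗ X) (h : G.memD (i.hom ≫ push (𝟙 (S ⊗ R)) x)) : G.mem x := by
  obtain ⟨S', hS', ⟨u⟩⟩ := exists_inv hS
  have h1 := h S' hS' (untw R u)
  rw [push_comp_left, push_untw] at h1
  let j : S' ⊗ A ≅ A' := whiskerLeftIso S' i ≪≫ (α_ S' S A').symm ≪≫ whiskerRightIso u A' ≪≫ λ_ A'
  have h2 : S' ◁ i.hom ≫ (α_ S' S A').inv ≫ u.hom ▷ A' ≫ (λ_ A').hom ≫ x = j.hom ≫ x := by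
    simp [j]
  rw [h2] at h1
  have h3 := G.comp (isSphere_tensor hS' hA) hA' j.inv h1
  rwa [Iso.inv_hom_id_assoc] at h3

theorem exists_relD_S (q : Quo G Y) (hS : IsSphere S) (hA : IsSphere A)
    {g : A ⟶ (S ⊗ R) ⊗ X} (h : G.memD g) : ∃ t : A ⟶ (S ⊗ R) ⊗ Y, q.RelD g t := by
  obtain ⟨A', hA', i, x, rfl⟩ := exists_push_id hS hA g
  have hx := mem_of_memD hS hA hA' i x h
  exact ⟨i.hom ≫ push (𝟙 (S ⊗ R)) (q.φ x),
    Quo.relD_comp (isSphere_tensor hS hA') hA i.hom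
      (OpSub.memD_push hS hA' _ (OpSub.memD_of_mem hA' hx))
      (Quo.relD_push hS hA' _ (OpSub.memD_of_mem hA' hx) (Quo.relD_of_mem hA' hx))⟩

theorem surj_relD_S (q : Quo G Y) (hS : IsSphere S) (hA : IsSphere A)
    (t : A ⟶ (S ⊗ R) ⊗ Y) : ∃ g : A ⟶ (S ⊗ R) ⊗ X, G.memD g ∧ q.RelD g t := by
  obtain ⟨A', hA', i, y, rfl⟩ := exists_push_id hS hA t
  obtain ⟨x, hx, rfl⟩ := q.surj hA' y
  exact ⟨i.hom ≫ push (𝟙 (S ⊗ R)) x,
    OpSub.memD_comp (isSphere_tensor hS hA') hA _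
      (OpSub.memD_push hS hA' _ (OpSub.memD_of_mem hA' hx)),
    Quo.relD_comp (isSphere_tensor hS hA') hA i.hom
      (OpSub.memD_push hS hA' _ (OpSub.memD_of_mem hA' hx))
      (Quo.relD_push hS hA' _ (OpSub.memD_of_mem hA' hx) (Quo.relD_of_mem hA' hx))⟩

/-! ### General `D` -/

namespace AddR

/-- the expansion -/
theorem expand (d : AddR R D) {Z : T} (hA : IsSphere A) (z : A ⟶ D ⊗ Z) : ∃ s : Finset d.I,
    z = (∑ i ∈ s, (z ≫ (d.ι ≫ cpr (fun i => d.S i ⊗ R) i) ▷ Z) ≫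
      Sigma.ι (fun i => d.S i ⊗ R) i ▷ Z) ≫ d.r ▷ Z := by
  obtain ⟨s, hs⟩ := sum_cpr (fun i => d.S i ⊗ R) hA (z ≫ d.ι ▷ Z)
  refine ⟨s, ?_⟩
  simp only [comp_whiskerRight]
  simp only [Category.assoc] at hs ⊢
  rw [← hs, Category.assoc, ← comp_whiskerRight, d.ι_r, id_whiskerRight, Category.comp_id]

/-- elements of `π_* (D ⊗ Z)` are detected by the maps `S ⊗ D ⟶ R`. -/
theorem unique (d : AddR R D) {Z : T} (hA : IsSphere A) {z : A ⟶ D ⊗ Z}
    (h : ∀ B : T, IsSphere B → ∀ e : B ⊗ D ⟶ R, push e z = 0) : z = 0 := by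
  obtain ⟨s, hs⟩ := d.expand hA z
  rw [hs]
  have h1 : ∀ i, z ≫ (d.ι ≫ cpr (fun i => d.S i ⊗ R) i) ▷ Z = 0 := by
    intro i
    obtain ⟨S', hS', ⟨u⟩⟩ := exists_inv (d.sph i)
    apply eq_zero_of_push_isIso hS' (untw R u)
    rw [← push_whiskerLeft]
    exact h S' hS' _
  rw [Finset.sum_eq_zero fun i _ => by rw [h1 i, zero_comp], zero_comp]

theorem unique' (d : AddR R D) {Z : T} (hA : IsSphere A) {z z' : A ⟶ D ⊗ Z}
    (h : ∀ B : T, IsSphere B → ∀ e : B ⊗ D ⟶ R, push e z = push e z') : z = z' := by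
  rw [← sub_eq_zero]
  exact d.unique hA fun B hB e => by rw [push_sub, h B hB e, sub_self]

theorem relD_unique (d : AddR R D) (q : Quo G Y) (hA : IsSphere A) {z : A ⟶ D ⊗ X}
    {t t' : A ⟶ D ⊗ Y} (h : q.RelD z t) (h' : q.RelD z t') : t = t' :=
  d.unique' hA fun B hB e => by rw [← h B hB e, h' B hB e]

theorem exists_relD (d : AddR R D) (q : Quo G Y) (hA : IsSphere A) {z : A ⟶ D ⊗ X}
    (h : G.memD z) : ∃ t : A ⟶ D ⊗ Y, q.RelD z t := by
  obtain ⟨s, hs⟩ := d.expand hA z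
  have h1 : ∀ i, G.memD (z ≫ (d.ι ≫ cpr (fun i => d.S i ⊗ R) i) ▷ X) := fun i =>
    OpSub.memD_map _ h
  choose t ht using fun i => exists_relD_S q (d.sph i) hA (h1 i)
  refine ⟨(∑ i ∈ s, t i ≫ Sigma.ι (fun i => d.S i ⊗ R) i ▷ Y) ≫ d.r ▷ Y, ?_⟩
  rw [hs]
  refine Quo.relD_map _ (Quo.relD_sum hA s _ _ (fun i _ => OpSub.memD_map _ (h1 i)) fun i _ =>
    Quo.relD_map _ (ht i))

theorem surj (d : AddR R D) (q : Quo G Y) (hA : IsSphere A) (t : A ⟶ D ⊗ Y) :
    ∃ z : A ⟶ D ⊗ X, G.memD z ∧ q.RelD z t := by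
  obtain ⟨s, hs⟩ := d.expand hA t
  choose z hz hzt using fun i => surj_relD_S q (d.sph i) hA
    (t ≫ (d.ι ≫ cpr (fun i => d.S i ⊗ R) i) ▷ Y)
  refine ⟨(∑ i ∈ s, z i ≫ Sigma.ι (fun i => d.S i ⊗ R) i ▷ X) ≫ d.r ▷ X,
    OpSub.memD_map _ (OpSub.memD_sum hA s _ fun i _ => OpSub.memD_map _ (hz i)), ?_⟩
  rw [hs]
  exact Quo.relD_map _ (Quo.relD_sum hA s _ _ (fun i _ => OpSub.memD_map _ (hz i)) fun i _ =>
    Quo.relD_map _ (hzt i))

end AddR

end Vale.Agent.P221.E
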