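import Vale.Agent.P221.H509.Final
import Vale.Agent.P221.T.H598.HBfin
import Vale.Agent.P221.E.H903.F
import Vale.Agent.P221.V.H520.Main

/-!
# P221, part E (helper903): the form and the environment over a given Brown-Peterson spectrum

* `isForm_over` : a form of `BP⟨n⟩` is a form over every Brown-Peterson spectrum;
* `exists_all` : the environment of the end game over a given Brown-Peterson spectrum;
* `exists_modStr`, `nice_of_isBPFinite`, `finZp_of_isBPFinite`.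
-/

open CategoryTheory MonoidalCategory MonObj Limits Pretriangulated

set_option linter.unusedSectionVars false

noncomputable section

namespace Vale.Agent.P221.E.H903

open Vale.Agent.P251 Vale.Agent.P251.S Vale.Agent.P251.T Vale.Agent.P251.M Vale.Agent.P251.F
  Vale.Agent.P251.I EvenSpheres Vale.Agent.P257.H702 Vale.Agent.P257.H80 Vale.Agent.P251.Q
  Vale.Agent.P251.St Vale.Agent.P257.St Vale.Agent.P221.H746 Vale.Agent.P093.N0
open Vale.Agent.P221.T (BPS sV FormD SpecSrc SrcT OpAlg Lead Env Coor PiM KK FS grR hat dd Lifts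
  exists_env FinZp)
open Vale.Agent.P221.H924 (BPOut kappa_comp redP kappa_polyGen xE qpi_kappa_isWH hazk)
open Vale.Agent.P221.H509 Vale.Agent.P221.V

variable {T : SHCat} {S : Susp T} {p : ℕ} [hp : Fact p.Prime] {n : ℕ}

section

variable {P P' : RingSp T}

/-- transport of the generated submodules -/
theorem inGen_map {x : ∀ j : ℕ, SHCat.Hom (S.obj (Cn (p ^ j - 1))) P'.obj} (g : P'.obj ⟶ P.obj)
    [IsMonHom g] {Z : T.C} {k : ℤ} {u : SHCat.Hom (P251.St.sphere T k) (SHCat.ten P'.obj Z)}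
    (h : P221.St.InGen n x Z u) :
    P221.St.InGen (R := P) (p := p) n (fun j => x j ≫ g) Z (u ≫ (g ▷ Z)) := by
  obtain ⟨N, b, rfl⟩ := h
  refine ⟨N, fun j => b j ≫ ((g ▷ S.obj (Cn (p ^ j - 1))) ▷ Z), ?_⟩
  rw [Preadditive.sum_comp]
  refine Finset.sum_congr rfl fun j _ => ?_
  have h1 : (g ▷ S.obj (Cn (p ^ j - 1))) ≫ ((𝟙 P.obj ⊗ₘ (x j ≫ g)) ≫ μ[P.obj]) =
      ((𝟙 P'.obj ⊗ₘ x j) ≫ μ[P'.obj]) ≫ g := by
    rw [Category.assoc, IsMonHom.mul_hom, ← tensorHom_id, ← Category.assoc, ← Category.assoc,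
      tensorHom_comp_tensorHom, tensorHom_comp_tensorHom, Category.comp_id, Category.id_comp,
      Category.id_comp]
  change (b j ≫ (((𝟙 P'.obj ⊗ₘ x j) ≫ μ[P'.obj]) ▷ Z)) ≫ (g ▷ Z) =
    (b j ≫ ((g ▷ S.obj (Cn (p ^ j - 1))) ▷ Z)) ≫ (((𝟙 P.obj ⊗ₘ (x j ≫ g)) ≫ μ[P.obj]) ▷ Z)
  rw [Category.assoc, Category.assoc, ← comp_whiskerRight, ← comp_whiskerRight, h1]

variable {o : P251.St.Oriented S P} {φ : P257.St.GHom S p P}

/-- **A form of `BP⟨n⟩` is a form over every Brown-Peterson spectrum.** -/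
theorem isForm_over (hP : P257.St.IsBrownPeterson p o φ) {B : T.C}
    (hB : P221.St.IsForm S p n B) :
    ∃ (x : ∀ j : ℕ, SHCat.Hom (S.obj (Cn (p ^ j - 1))) P.obj)
      (a : SHCat.Hom (SHCat.ten P.obj B) B) (q : SHCat.Hom P.obj B),
      (∀ j, n < j → P221.St.IsPolyGen φ j (x j)) ∧ P221.St.PComplete p B ∧ P221.St.IsAct a ∧
        P221.St.IsModMap P.mul a q ∧ ∀ M : T.C, P221.St.IsMoore p M →
          (∀ (k : ℤ) (y : SHCat.Hom (P251.St.sphere T k) (SHCat.ten B M)),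
            ∃ u : SHCat.Hom (P251.St.sphere T k) (SHCat.ten P.obj M),
              SHCat.comp u (P257.St.tenR q M) = y) ∧
          ∀ (k : ℤ) (u : SHCat.Hom (P251.St.sphere T k) (SHCat.ten P.obj M)),
            SHCat.comp u (P257.St.tenR q M) = 0 ↔ P221.St.InGen n x M u := by
  obtain ⟨P', o', φ', x', a', q', hP', hx, hBc, ha, hq, hmod⟩ := hB
  obtain ⟨f, hf, hf', hφ⟩ := exists_bp_iso hP' hP
  refine ⟨fun j => x' j ≫ f.hom, (f.inv ▷ B) ≫ a', f.inv ≫ q', fun j hj => ?_, hBc,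
    isAct_comp ha f.inv, ?_, fun M hM => ⟨fun k y => ?_, fun k u => ?_⟩⟩
  · obtain ⟨m, w, h1, h2, h3⟩ := hx j hj
    refine ⟨m, w, h1, h2, ?_⟩
    have h4 := hφ _ w
    change (m : ℤ) • (x' j ≫ f.hom) = φ.val w
    have h5 : (m : ℤ) • x' j = φ'.val w := h3
    rw [← Preadditive.zsmul_comp, h5]
    exact h4
  · change μ[P.obj] ≫ f.inv ≫ q' = (P.obj ◁ (f.inv ≫ q')) ≫ (f.inv ▷ B) ≫ a'
    have h1 : μ[P'.obj] ≫ q' = (P'.obj ◁ q') ≫ a' := hq
    have h2 : μ[P.obj] ≫ f.inv = (f.inv ⊗ₘ f.inv) ≫ μ[P'.obj] := IsMonHom.mul_hom f.inv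
    rw [← Category.assoc, h2, Category.assoc, h1, ← Category.assoc, ← Category.assoc]
    congr 1
    rw [← id_tensorHom, ← id_tensorHom, ← tensorHom_id, tensorHom_comp_tensorHom,
      tensorHom_comp_tensorHom]
    simp only [Category.comp_id, Category.id_comp]
  · obtain ⟨u, hu⟩ := (hmod M hM).1 k y
    refine ⟨u ≫ (f.hom ▷ M), ?_⟩
    change (u ≫ (f.hom ▷ M)) ≫ ((f.inv ≫ q') ▷ M) = y
    rw [Category.assoc, ← comp_whiskerRight, Iso.hom_inv_id_assoc]
    exact hu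
  · have h1 : SHCat.comp u (P257.St.tenR (f.inv ≫ q') M) =
        SHCat.comp (u ≫ (f.inv ▷ M)) (P257.St.tenR q' M) := by
      change u ≫ ((f.inv ≫ q') ▷ M) = (u ≫ (f.inv ▷ M)) ≫ (q' ▷ M)
      rw [comp_whiskerRight, Category.assoc]
    rw [h1, (hmod M hM).2 k]
    constructor
    · intro h
      have h2 := inGen_map (P := P) f.hom h
      rw [Category.assoc, ← comp_whiskerRight, Iso.inv_hom_id, id_whiskerRight,
        Category.comp_id] at h2
      exact h2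
    · intro h
      have h2 := inGen_map (P := P') f.inv h
      simp only [Category.assoc, Iso.hom_inv_id, Category.comp_id] at h2
      exact h2

/-- **The environment of the end game, over a given Brown-Peterson spectrum.** -/
theorem exists_all (hP : P257.St.IsBrownPeterson p o φ) {B : T.C}
    (hB : P221.St.IsForm S p n B) :
    ∃ (D : MUData T.C) (_ : MUUniv (M.lineIso S.toSpaceFunctor) D) (_ : MUAll D)
      (b₀ : D.R ⟶ P.obj) (_ : IsMonHom b₀) (_ : IsBPMon p b₀) (Pc W : T.C)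
      (b : BPS p P.obj Pc W) (ld : Lead p n) (S' : SrcT p n Pc) (O : OpAlg ld S'.src)
      (q : Pc ⟶ B) (TB : ∀ d, FS (S'.sys B) (grR p n) d),
      Matches b φ ∧ b.Top ∧ Env S' O q TB ∧ LiftsV S' q ∧
        ∀ (Y : T.C) (M : ModStr P.obj Y) (hY : H395.PComplete p Y),
          letI : Module (KK p) (PiM Y) := b.mdl M hY
          Nonempty (Coor O (S'.sys Y) (PiM Y) (PiM.gr Y)) := by
  obtain ⟨x, a, q, hx, hBc, ha, hq, hmod⟩ := isForm_over hP hB
  obtain ⟨D, hD, hA, ⟨U⟩⟩ := H924.exists_mu S.toSpaceFunctor (M.lineIso S.toSpaceFunctor)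
  obtain ⟨b₀, hm₀, κ, Φ, hκ, hφ, hΦ⟩ := exists_bpOut' hD hA U hP
  obtain ⟨Pc, W, b, hv⟩ := Vale.Agent.P221.T.H598.exists_BPS hD hA hκ.mon hΦ
  obtain ⟨C, i, δ, hM⟩ := distinguished_cocone_triangle ((p : ℤ) • 𝟙 (𝟙_ T.C))
  obtain ⟨h1, h2⟩ := hmod C ⟨i, δ, hM⟩
  have h3 : H924.QOut n x κ ((H924.modOf ha).tensorRight C) (q ≫ H924.rdM i B) :=
    H924.qOut_of_mod hκ.good hκ.surj hκ.ker hM (H924.modOf ha) hq h1 h2
  obtain ⟨F, -, -⟩ := Vale.Agent.P221.T.H924.exists_formD b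
    (Vale.Agent.P221.T.H924.vHyp_of_phi b hκ hΦ hv) (H924.modOf ha) hBc hq hκ hx hM h3
  have hT : b.Top := H136.top_bps hD hκ.mon b
  obtain ⟨ld, S', O, TB, E, hL, hco⟩ := exists_envV (Vale.Agent.P221.T.specSrc p n) b hT F
    (H136.par hD hκ.mon b)
  exact ⟨D, hD, hA, b₀, hm₀, hκ.mon, Pc, W, b, ld, S', O, F.Q, TB, matches_of_vPhi b hφ hv, hT, E,
    hL, hco⟩

/-! ### The quotients of the filtration -/

/-- finitely generated homotopy modules, over a given Brown-Peterson spectrum -/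
theorem exists_finGen (hP : P257.St.IsBrownPeterson p o φ) {X : T.C}
    (hX : P221.St.IsBPFinite S p n X) {Pc W : T.C} (b : BPS p P.obj Pc W) (hb : Matches b φ) :
    ∃ (L : ModStr P.obj X) (hX : H395.PComplete p X), b.FinGen n L hX := by
  obtain ⟨hc, P', o', φ', a', hP', ha', hfg⟩ := hX
  obtain ⟨f, hf, hf', hφ⟩ := exists_bp_iso hP' hP
  have h1 := isAct_comp (P' := P) ha' f.inv
  have h2 := isFG_comp f hφ hfg
  exact ⟨H924.modOf h1, hc, finGen_of_isFG h1 hc b hb h2⟩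

/-- the systems of the quotients of the filtration -/
theorem nice_of_isBPFinite (hP : P257.St.IsBrownPeterson p o φ) {X : T.C}
    (hX : P221.St.IsBPFinite S p n X) {Pc W : T.C} {b : BPS p P.obj Pc W} (hb : Matches b φ)
    {ld : Lead p n} {S' : SrcT p n Pc} {O : OpAlg ld S'.src}
    (hco : ∀ (Y : T.C) (M : ModStr P.obj Y) (hY : H395.PComplete p Y),
      letI : Module (KK p) (PiM Y) := b.mdl M hY
      Nonempty (Coor O (S'.sys Y) (PiM Y) (PiM.gr Y))) :
    Nice S' X ∧ (∀ k : ℤ, FinZp p ((𝟙_ T.C)⟦k⟧ ⟶ X)) ∧ H395.PComplete p X ∧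
      Nonempty (ModStr P.obj X) := by
  obtain ⟨L, hc, hfg⟩ := exists_finGen hP hX b hb
  exact ⟨nice_of_finGen b L hc hfg (hco X L hc), fun k => finZp_of_finGen b L hc hfg (hco X L hc) k,
    hc, ⟨L⟩⟩

end

end Vale.Agent.P221.E.H903
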