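import Vale.Agent.P221.E.H903.ExR
import Vale.Agent.P221.E.H509.Sys
import Vale.Agent.P221.E.H509.Bridge
import Vale.Agent.P221.V.H520.End
import Vale.Agent.P221.H746.ZBP2
import Vale.Agent.P221.Loc.Int

/-!
# P221, part E (helper903): second assembly of the theorem on extensions
-/

open CategoryTheory MonoidalCategory MonObj Limits Pretriangulated

set_option linter.unusedSectionVars false

noncomputable section

namespace Vale.Agent.P221.E.H903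

open Vale.Agent.P251 Vale.Agent.P251.S Vale.Agent.P251.T Vale.Agent.P251.M Vale.Agent.P251.F
  Vale.Agent.P251.I EvenSpheres Vale.Agent.P257.H702 Vale.Agent.P257.H80 Vale.Agent.P251.Q
  Vale.Agent.P251.St Vale.Agent.P257.St Vale.Agent.P221.H746 Vale.Agent.P093.N0
open Vale.Agent.P221.T (BPS FinZp)
open Vale.Agent.P221.H509 Vale.Agent.P221.V
open Vale.Agent.P257.H762

variable {T : SHCat} {S : Susp T} {p : ℕ} [hp : Fact p.Prime] {n : ℕ}

theorem hExt : Loc.HExt S p n := by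
  intro B Y hB hYc ⟨N, hN⟩ R o φ G hP hG hall
  obtain ⟨D, hD, hA, b₀, hm₀, hmon, Pc, W, b, ld, S', O, q, TB, hm, hT, Ev, hL, hco⟩ :=
    exists_all hP hB
  have h𝒴 : ∀ Z, StI.IsOrModule S Z → StI.IsFpType S p n Z →
      (Nice S' Z ∧ (∀ k : ℤ, FinZp p ((𝟙_ T.C)⟦k⟧ ⟶ Z))) ∧ Cls p R.obj Z := by
    intro Z h1 h2
    have h3 := Loc.isFpTypeI_of h2
    obtain ⟨h4, h5, h6, h7⟩ := nice_of_isBPFinite hP (isBPFinite_of_fpType' hp.out h3 h1) hm hco
    obtain ⟨N', hN'⟩ := h3.2.1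
    exact ⟨⟨h4, h5⟩, h7, h6, N', hN'⟩
  obtain ⟨m, hfl⟩ := E.H509.exists_fl h𝒴 hG hall
  have hn : Conn N Y := hN
  have hI := fun k => uu_unit_bp (𝒴 := fun Z => (Nice S' Z ∧
    (∀ k : ℤ, FinZp p ((𝟙_ T.C)⟦k⟧ ⟶ Z))) ∧ Cls p R.obj Z) hD hmon (fun _ h => h.2) hn hYc hfl k
  have hPc := fun k => uu_P_bp (𝒴 := fun Z => (Nice S' Z ∧
    (∀ k : ℤ, FinZp p ((𝟙_ T.C)⟦k⟧ ⟶ Z))) ∧ Cls p R.obj Z) hD hA hmon b (fun _ h => h.2) hn hYc
      hfl k
  obtain ⟨d₀, hd₀⟩ := E.H509.fext_of_fl (S := S') (fun φ hi ho h => FExt.of_iso φ ho hi h) hPc hI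
    (fun Z h => h.1.1) hfl
  obtain ⟨i, hi⟩ := hd₀ d₀ le_rfl
  have hF := FExt.of_iso' (PSub.incl (E.H509.psub S' (OpSub.top R.obj Y) d₀))
    ⟨fun k hk a => ⟨PSub.el _ hk a fun A _ w => trivial, PSub.vA_el _ hk a _⟩,
      fun k hk a => ⟨PSub.elP _ hk a fun A _ w => trivial, PSub.vP_elP _ hk a _⟩⟩
    (PSub.incl_inj _) (hi i le_rfl)
  refine stThick_of_thick (thick_of_env Ev hL hYc hF hN fun k => ?_)
  exact finZp_of_fl (fun h => (hI k).bot h) (fun q h h' => (hI k).ex q h h')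
    (fun q h h' => (hI k).onto q h h') (fun Z h => uniq_hom h.2.2.1 _) (fun Z h => h.1.2 k) hfl

end Vale.Agent.P221.E.H903
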