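import Vale.Agent.P221.E.H509.Final
import Vale.Agent.P221.H174.NonVac

/-!
# P221 (helper903): the characterisation

* `FpConv` : the objects of the class `IsBPFinite` which are bounded below become totally finite after
  the tensor product with a generalised Moore spectrum;
* `isGen_of_isStandardForm` : a standard form `B` belongs to the generating class `IsGen`;
* `thickOf_iff` : the characterisation.
-/

open CategoryTheory MonoidalCategory MonObj Limits Pretriangulated

set_option linter.unusedSectionVars false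

noncomputable section

namespace Vale.Agent.P221.E.H903

open Vale.Agent.P251 Vale.Agent.P251.S Vale.Agent.P251.T Vale.Agent.P251.M Vale.Agent.P251.F
  Vale.Agent.P251.I EvenSpheres Vale.Agent.P257.H702 Vale.Agent.P257.H80 Vale.Agent.P251.Q
  Vale.Agent.P251.St Vale.Agent.P251.St.SHCat Vale.Agent.P257.St
  Vale.Agent.P221.H746 Vale.Agent.P093.N0

variable {T : SHCat} {S : Susp T} {p n : ℕ}

/-- the statement (IFF-1) -/
def FpConv (S : Susp T) (p n : ℕ) : Prop :=
  ∀ Y : T.C, St.IsBPFinite S p n Y → St.BoundedBelow Y →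
    ∀ (P : RingSp T) (o : Oriented S P) (φ : GHom S p P), IsBrownPeterson p o φ →
      ∀ V : T.C, St.IsGenMoore φ (n + 1) V → St.TotallyFinite (ten Y V)

theorem evIso_ident (X : T.C) : StI.EvIso (ident X) := by
  refine ⟨0, fun k _ => ?_⟩
  have h : (fun x : StI.Pi k X => comp x (ident X)) = id := by
    funext x
    exact Category.comp_id _
  rw [h]
  exact Function.bijective_id

/-- **a standard form `B` is an fp-spectrum of fp-type at most `n`** -/
theorem isFpType_of_isStandardForm (hp : p.Prime) (hF : FpConv S p n) {B X : T.C}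
    (hB : StI.IsStandardForm S p n B) (hX : StI.IsFpType S p n X) : StI.IsFpType S p n B := by
  have : Fact p.Prime := ⟨hp⟩
  obtain ⟨D, hD, hA, ⟨U⟩⟩ := H924.exists_mu S.toSpaceFunctor (P251.M.lineIso S.toSpaceFunctor)
  have hB' : St.IsForm S p n B :=
    H924.isForm_of_isStandardForm hD hA U
      (Loc.isStandardForm_iff.1 (Loc.isStandardFormI_iff.1 hB))
  obtain ⟨C, i, δ, hC⟩ := H746.exists_moore (𝒯 := T.C) (p : ℤ)
  have hg := Loc.good_of_isForm hC hB'
  obtain ⟨-, -, P, o, φ, V, N, h3, h4, h5⟩ := hX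
  obtain ⟨h6, N', h7⟩ := hF B (H174.isBPFinite_of_isForm hB') hg.bb P o φ h3 V
    (Loc.isGenMooreI_of h4)
  exact ⟨hg.pc, hg.bb, P, o, φ, V, N', h3, h4, fun k => ⟨h6 k, fun hk => h7 k hk⟩⟩

/-- a standard form `B` belongs to the generating class -/
theorem isGen_of_isStandardForm (hp : p.Prime) (hF : FpConv S p n) {B X : T.C}
    (hB : StI.IsStandardForm S p n B) (hX : StI.IsFpType S p n X) : StI.IsGen S p n B := by
  refine ⟨B, ident B, evIso_ident B, Or.inl ⟨?_, isFpType_of_isStandardForm hp hF hB hX⟩⟩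
  have : Fact p.Prime := ⟨hp⟩
  obtain ⟨D, hD, hA, ⟨U⟩⟩ := H924.exists_mu S.toSpaceFunctor (P251.M.lineIso S.toSpaceFunctor)
  obtain ⟨P, o, φ, x, a, q, h1, h2, h3, h4, -⟩ : St.IsForm S p n B :=
    H924.isForm_of_isStandardForm hD hA U
      (Loc.isStandardForm_iff.1 (Loc.isStandardFormI_iff.1 hB))
  exact ⟨P, o, a, h4⟩

theorem thickOf_mono {Q Q' : T.C → Prop} (h : ∀ Y, Q Y → Q' Y) {X : T.C}
    (hX : StI.ThickOf Q X) : StI.ThickOf Q' X := by
  induction hX with
  | base h0 => exact StI.ThickOf.base (h _ h0)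
  | zero h0 => exact StI.ThickOf.zero h0
  | susp k _ ih => exact StI.ThickOf.susp k ih
  | cof hd _ _ ih₁ ih₂ => exact StI.ThickOf.cof hd ih₁ ih₂
  | retract i r hir _ ih => exact StI.ThickOf.retract i r hir ih

/-- **the characterisation** -/
theorem thickOf_iff (hp : p.Prime) (hF : FpConv S p n) {B X : T.C}
    (hB : StI.IsStandardForm S p n B) (hX : StI.IsFpType S p n X) :
    StI.ThickOf (fun Y : T.C => Y = B) X ↔
      ∃ (M : T.C) (f : Hom X M), StI.EvIso f ∧ StI.ThickOf (StI.IsGen S p n) M := by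
  constructor
  · intro h
    refine ⟨X, ident X, evIso_ident X, thickOf_mono (fun Y hY => ?_) h⟩
    rw [hY]
    exact isGen_of_isStandardForm hp hF hB hX
  · rintro ⟨M, f, hf, hM⟩
    exact H509.thick_of_ev hp hB hX hf hM

end Vale.Agent.P221.E.H903
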