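import Vale.Agent.P221.T.H520.Asm
import Vale.Agent.P221.V.Def

/-!
# P221, part E (helper903): the quotients of the filtration have filtered systems

* `qq_succ`, `qq_mono` : a resolution of length `i` is one of length `i' ≥ i`;
* `Nice S Y` : in degrees `≥ d`, `d` large, `S.sys Y` is a filtered system whose graded module has a
  resolution of length `i`, `i` large;
* `nice_of_coor`, `nice_of_finGen`;
* `finZp_of_coor`, `finZp_of_finGen` : `π_k Y` is finitely generated over `ℤ_p`.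
-/

open CategoryTheory MonoidalCategory MonObj Limits Pretriangulated
open Vale.Agent.P251.T Vale.Agent.P251.M Vale.Agent.P251.S

set_option linter.unusedSectionVars false

universe u

namespace Vale.Agent.P221.E

open Vale.Agent.P221.T

section alg

variable {p n : ℕ}

theorem qq_of_bot {N : Type} [AddCommGroup N] [Module (RR p n) N] {gr : ℤ → ℤ → AddSubgroup N}
    {d : ℤ} (h : ∀ k s, gr k s = ⊥) : QQ p n d 1 N gr := by
  rw [QQ_succ]
  refine ⟨0, Fin.elim0, Fin.elim0, 0, fun j => j.elim0, ⟨fun k s x _ => ?_, fun k s y hy => ?_⟩, ?_⟩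
  · exact (gr k s).zero_mem
  · rw [h] at hy
    exact ⟨0, (grFree p n _ _ k s).zero_mem, by rw [map_zero, (AddSubgroup.mem_bot).1 hy]⟩
  · rw [QQ_zero]
    intro k s
    rw [eq_bot_iff]
    intro x _
    exact AddSubgroup.mem_bot.2 (Subsingleton.elim _ _)

theorem qq_succ {d : ℤ} (i : ℕ) : ∀ {N : Type} [AddCommGroup N] [Module (RR p n) N]
    {gr : ℤ → ℤ → AddSubgroup N}, QQ p n d i N gr → QQ p n d (i + 1) N gr := by
  induction i with
  | zero =>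
    intro N _ _ gr h
    exact qq_of_bot ((QQ_zero d gr).1 h)
  | succ i ih =>
    intro N _ _ gr h
    obtain ⟨r, e, a, f, he, hf, hK⟩ := (QQ_succ d i gr).1 h
    exact (QQ_succ d (i + 1) gr).2 ⟨r, e, a, f, he, hf, ih hK⟩

theorem qq_mono {d : ℤ} {i i' : ℕ} (h : i ≤ i') {N : Type} [AddCommGroup N] [Module (RR p n) N]
    {gr : ℤ → ℤ → AddSubgroup N} (hQ : QQ p n d i N gr) : QQ p n d i' N gr := by
  induction h with
  | refl => exact hQ
  | step _ ih => exact qq_succ _ ih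

end alg

variable {𝒯 : Type u} [Category.{0} 𝒯] [Preadditive 𝒯] [HasZeroObject 𝒯]
    [HasShift 𝒯 ℤ] [∀ n : ℤ, (shiftFunctor 𝒯 n).Additive] [Pretriangulated 𝒯] [IsTriangulated 𝒯]
    [MonoidalCategory 𝒯] [SymmetricCategory 𝒯] [TensorTriangulated 𝒯] [MonoidalClosed 𝒯]
    [HasCoproducts.{0} 𝒯] [HasProducts.{0} 𝒯] [StableCat 𝒯]

variable {p n : ℕ} [Fact p.Prime] {P : 𝒯}

/-- in degrees `≥ d`, `d` large, `S.sys Y` is a filtered system whose graded module has a resolution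
of length `i`, `i` large -/
def Nice (S : SrcT p n P) (Y : 𝒯) : Prop :=
  ∃ d₀ : ℤ, ∀ d, d₀ ≤ d → ∃ i₀ : ℕ, ∀ i, i₀ ≤ i → ∃ (N : Type) (_ : AddCommGroup N)
    (_ : Module (RR p n) N) (gr : ℤ → ℤ → AddSubgroup N), IsGr p n gr ∧ QQ p n d i N gr ∧
      Nonempty (FS (S.sys Y) gr d)

section

variable {ld : Lead p n} {S : SrcT p n P} {O : OpAlg ld S.src}

theorem nice_of_coor (Y : 𝒯) (M : Type) [AddCommGroup M] [Module (KK p) M]
    (Mg : ℤ → AddSubgroup M) (co : Coor O (S.sys Y) M Mg)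
    (hfg : ∃ (r : ℕ) (e : Fin r → ℤ) (y : Fin r → M), (∀ i, y i ∈ Mg (e i)) ∧
      ∀ k, ∀ z ∈ Mg k, ∃ f : Fin r → MvPolynomial (Fin n) ℤ_[p],
        (∀ i, HK p (k - e i) (MvPolynomial.rename (fun i : Fin n => (i : ℕ)) (f i))) ∧
          z = ∑ i, MvPolynomial.rename (fun i : Fin n => (i : ℕ)) (f i) • y i) : Nice S Y := by
  obtain ⟨N, _, _, gr, hgr, hFG, hFS⟩ := H609.specS p n ld S.src O (S.sys Y) M Mg co hfg
  obtain ⟨d₀, hd₀⟩ := (H136.specRes p n).1 N gr hgr hFG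
  refine ⟨d₀, fun d hd => ?_⟩
  obtain ⟨i₀, hi₀⟩ := hd₀ d hd
  obtain ⟨T⟩ := hFS d
  exact ⟨i₀, fun i hi => ⟨N, _, _, trunc d gr,
    H136.isGr_trunc (Fact.out : p.Prime).one_lt.le hgr d, qq_mono hi hi₀, ⟨T.trunc⟩⟩⟩

theorem equiv_of_coor {Y : 𝒯} {M : Type} [AddCommGroup M] [Module (KK p) M]
    {Mg : ℤ → AddSubgroup M} (co : Coor O (S.sys Y) M Mg) (k : ℤ) :
    Nonempty (((𝟙_ 𝒯)⟦k⟧ ⟶ Y) ≃+ Mg k) := by
  let φ : ((𝟙_ 𝒯)⟦k⟧ ⟶ Y) →+ Mg k :=
    (co.e k).codRestrict (Mg k) fun x => (co.e_range k _).1 ⟨x, rfl⟩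
  refine ⟨AddEquiv.ofBijective φ ⟨fun a b hab => ?_, fun z => ?_⟩⟩
  · exact co.e_inj k (congrArg Subtype.val hab)
  · obtain ⟨a, ha⟩ := (co.e_range k z.1).2 z.2
    exact ⟨a, Subtype.ext ha⟩

theorem finZp_of_coor (Y : 𝒯) (M : Type) [AddCommGroup M] [Module (KK p) M]
    (Mg : ℤ → AddSubgroup M) (co : Coor O (S.sys Y) M Mg)
    (hfg : ∃ (r : ℕ) (e : Fin r → ℤ) (y : Fin r → M), (∀ i, y i ∈ Mg (e i)) ∧
      ∀ k, ∀ z ∈ Mg k, ∃ f : Fin r → MvPolynomial (Fin n) ℤ_[p],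
        (∀ i, HK p (k - e i) (MvPolynomial.rename (fun i : Fin n => (i : ℕ)) (f i))) ∧
          z = ∑ i, MvPolynomial.rename (fun i : Fin n => (i : ℕ)) (f i) • y i) (k : ℤ) :
    FinZp p ((𝟙_ 𝒯)⟦k⟧ ⟶ Y) := by
  obtain ⟨r, e, y, hy, hgen⟩ := hfg
  obtain ⟨φ⟩ := equiv_of_coor co k
  exact FinZp.of_equiv φ (fin_of_gen Mg e y hgen co.smul_mem hy k)

variable {R W : 𝒯} [MonObj R] [IsCommMonObj R]

/-- the input of `nice_of_coor` for a `p`-complete `R`-module with finitely generated homotopy -/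
theorem exists_gen {b : BPS p R P W} {Y : 𝒯} {L : ModStr R Y} {hY : H395.PComplete p Y}
    (hfg : b.FinGen n L hY) :
    letI : Module (KK p) (PiM Y) := b.mdl L hY
    ∃ (r : ℕ) (e : Fin r → ℤ) (y : Fin r → PiM Y), (∀ i, y i ∈ PiM.gr Y (e i)) ∧
      ∀ k, ∀ z ∈ PiM.gr Y k, ∃ f : Fin r → MvPolynomial (Fin n) ℤ_[p],
        (∀ i, HK p (k - e i) (MvPolynomial.rename (fun i : Fin n => (i : ℕ)) (f i))) ∧
          z = ∑ i, MvPolynomial.rename (fun i : Fin n => (i : ℕ)) (f i) • y i := by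
  obtain ⟨r, e, y, hy⟩ := hfg
  refine ⟨r, e, fun i => PiM.of Y (e i) (y i), fun i => ⟨_, rfl⟩, ?_⟩
  rintro k _ ⟨z, rfl⟩
  exact hy k z

theorem nice_of_finGen (b : BPS p R P W) {Y : 𝒯} (L : ModStr R Y) (hY : H395.PComplete p Y)
    (hfg : b.FinGen n L hY)
    (hco : letI : Module (KK p) (PiM Y) := b.mdl L hY
      Nonempty (Coor O (S.sys Y) (PiM Y) (PiM.gr Y))) : Nice S Y := by
  let _ : Module (KK p) (PiM Y) := b.mdl L hY
  obtain ⟨co⟩ := hco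
  exact nice_of_coor Y (PiM Y) (PiM.gr Y) co (exists_gen hfg)

theorem finZp_of_finGen (b : BPS p R P W) {Y : 𝒯} (L : ModStr R Y) (hY : H395.PComplete p Y)
    (hfg : b.FinGen n L hY)
    (hco : letI : Module (KK p) (PiM Y) := b.mdl L hY
      Nonempty (Coor O (S.sys Y) (PiM Y) (PiM.gr Y))) (k : ℤ) : FinZp p ((𝟙_ 𝒯)⟦k⟧ ⟶ Y) := by
  let _ : Module (KK p) (PiM Y) := b.mdl L hY
  obtain ⟨co⟩ := hco
  exact finZp_of_coor Y (PiM Y) (PiM.gr Y) co (exists_gen hfg) k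

end

end Vale.Agent.P221.E
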