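import Vale.Agent.P221.E.H903.D

/-!
# P221, part E (helper903): the class of the objects `D`

* `NiceD R D` : elements of `π_* (D ⊗ Z)` are detected by the `S ⊗ D ⟶ R`, quotients extend to
  `π_* (D ⊗ X)`;
* `niceD_self`, `NiceD.tensorS`, `NiceD.tensorR`, `AddR.nice`;
* `coords` : the coordinates of `R ⊗ D`, `D` an `R`-module.
-/

open CategoryTheory MonoidalCategory MonObj Limits Pretriangulated
open Vale.Agent.P251.S Vale.Agent.P251.T Vale.Agent.P251.M Vale.Agent.P093.Nak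
open Vale.Agent.P221.H658 (rb ru comp_rb rb_rb rb_whiskerRight isIso_rb rb_ru)

set_option linter.unusedSectionVars false
set_option linter.unusedVariables false

universe u

namespace Vale.Agent.P221.E

variable {T : Type u} [Category.{0} T] [Preadditive T] [HasZeroObject T]
    [HasShift T ℤ] [∀ n : ℤ, (shiftFunctor T n).Additive] [Pretriangulated T] [IsTriangulated T]
    [MonoidalCategory T] [SymmetricCategory T] [TensorTriangulated T] [MonoidalClosed T]
    [HasCoproducts.{0} T] [HasProducts.{0} T] [StableCat T]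

/-- the properties of `D` -/
structure NiceD (R D : T) : Prop where
  uniq : ∀ {A Z : T}, IsSphere A → ∀ z : A ⟶ D ⊗ Z,
    (∀ B : T, IsSphere B → ∀ e : B ⊗ D ⟶ R, push e z = 0) → z = 0
  ex : ∀ {A X Y : T} {G : OpSub R X} (q : Quo G Y), IsSphere A → ∀ z : A ⟶ D ⊗ X, G.memD z →
    ∃ t, q.RelD z t
  sur : ∀ {A X Y : T} {G : OpSub R X} (q : Quo G Y), IsSphere A → ∀ t : A ⟶ D ⊗ Y,
    ∃ z : A ⟶ D ⊗ X, G.memD z ∧ q.RelD z t

variable {R D S A X Y Z : T}

theorem AddR.nice (d : AddR R D) : NiceD R D where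
  uniq hA z h := d.unique hA h
  ex q hA z h := d.exists_relD q hA h
  sur q hA t := d.surj q hA t

namespace NiceD

theorem unique (h : NiceD R D) {G : OpSub R X} (q : Quo G Y) (hA : IsSphere A) {z : A ⟶ D ⊗ X}
    {t t' : A ⟶ D ⊗ Y} (ht : q.RelD z t) (ht' : q.RelD z t') : t = t' := by
  rw [← sub_eq_zero]
  exact h.uniq hA _ fun B hB e => by rw [push_sub, ← ht B hB e, ht' B hB e, sub_self]

end NiceD

theorem mem_of_memD_self {G : OpSub R X} (hA : IsSphere A) {z : A ⟶ R ⊗ X} (h : G.memD z) :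
    G.mem z := by
  have h1 := h (𝟙_ T) isSphere_one (λ_ R).hom
  rw [push_leftUnitor] at h1
  have h2 := G.comp (isSphere_tensor isSphere_one hA) hA (λ_ A).inv h1
  rwa [Iso.inv_hom_id_assoc] at h2

theorem niceD_self (R : T) : NiceD R R where
  uniq hA z h := by
    have h1 := h (𝟙_ T) isSphere_one (λ_ R).hom
    rw [push_leftUnitor] at h1
    rwa [← cancel_epi (λ_ _).hom, comp_zero]
  ex q hA z h := ⟨q.φ z, Quo.relD_of_mem hA (mem_of_memD_self hA h)⟩
  sur q hA t := by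
    obtain ⟨z, hz, rfl⟩ := q.surj hA t
    exact ⟨z, OpSub.memD_of_mem hA hz, Quo.relD_of_mem hA hz⟩

/-! ### `S ⊗ D` -/

section tensorS

variable {S' A' : T}

/-- the isomorphism `S' ⊗ (S ⊗ A') ≅ A'` -/
noncomputable def jiso {S S' : T} (u : S' ⊗ S ≅ 𝟙_ T) (A' : T) : S' ⊗ (S ⊗ A') ≅ A' :=
  (α_ S' S A').symm ≪≫ whiskerRightIso u A' ≪≫ λ_ A'

theorem push_untw' (u : S' ⊗ S ≅ 𝟙_ T) (x : A' ⟶ D ⊗ Z) :
    push (untw D u) (push (𝟙 (S ⊗ D)) x) = (jiso u A').hom ≫ x := by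
  rw [push_untw]
  simp [jiso]

theorem memD_desusp {G : OpSub R X} (hS : IsSphere S) (hA : IsSphere A) (hA' : IsSphere A')
    (i : A ≅ S ⊗ A') (x : A' ⟶ D ⊗ X) (h : G.memD (i.hom ≫ push (𝟙 (S ⊗ D)) x)) :
    G.memD x := by
  obtain ⟨S', hS', ⟨u⟩⟩ := exists_inv hS
  have h0 : G.memD (push (𝟙 (S ⊗ D)) x) := by
    have := OpSub.memD_comp hA (isSphere_tensor hS hA') i.inv h
    rwa [Iso.inv_hom_id_assoc] at this
  have h1 := OpSub.memD_push hS' (isSphere_tensor hS hA') (untw D u) h0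
  rw [push_untw'] at h1
  have h2 := OpSub.memD_comp (isSphere_tensor hS' (isSphere_tensor hS hA')) hA'
    (jiso u A').inv h1
  rwa [Iso.inv_hom_id_assoc] at h2

theorem NiceD.tensorS (h : NiceD R D) (hS : IsSphere S) : NiceD R (S ⊗ D) where
  uniq {A Z} hA z hz := by
    obtain ⟨S', hS', ⟨u⟩⟩ := exists_inv hS
    obtain ⟨A', hA', i, x, rfl⟩ := exists_push_id (R := D) hS hA z
    have hx : x = 0 := by
      refine h.uniq hA' x fun B hB e => ?_
      have h1 := hz (B ⊗ S') (isSphere_tensor hB hS')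
        ((α_ B S' (S ⊗ D)).hom ≫ B ◁ untw D u ≫ e)
      have h2 : push e (push (untw D u) (i.hom ≫ push (𝟙 (S ⊗ D)) x)) = 0 := by
        rw [push_push, h1, comp_zero]
      rw [push_comp_left, push_comp_left, push_untw', push_comp_left] at h2
      have h3 : (B ◁ S' ◁ i.hom ≫ B ◁ (jiso u A').hom) ≫ push e x = 0 := by
        rw [Category.assoc]
        exact h2
      have : IsIso (B ◁ S' ◁ i.hom ≫ B ◁ (jiso u A').hom) := inferInstance
      rwa [← cancel_epi (B ◁ S' ◁ i.hom ≫ B ◁ (jiso u A').hom), comp_zero]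
    rw [hx, push_zero', comp_zero]
  ex {A X Y G} q hA z hz := by
    obtain ⟨A', hA', i, x, rfl⟩ := exists_push_id (R := D) hS hA z
    have hx := memD_desusp hS hA hA' i x hz
    obtain ⟨t, ht⟩ := h.ex q hA' x hx
    exact ⟨i.hom ≫ push (𝟙 (S ⊗ D)) t, Quo.relD_comp (isSphere_tensor hS hA') hA i.hom
      (OpSub.memD_push hS hA' _ hx) (Quo.relD_push hS hA' _ hx ht)⟩
  sur {A X Y G} q hA t := by
    obtain ⟨A', hA', i, y, rfl⟩ := exists_push_id (R := D) hS hA t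
    obtain ⟨x, hx, hxt⟩ := h.sur q hA' y
    exact ⟨i.hom ≫ push (𝟙 (S ⊗ D)) x,
      OpSub.memD_comp (isSphere_tensor hS hA') hA _ (OpSub.memD_push hS hA' _ hx),
      Quo.relD_comp (isSphere_tensor hS hA') hA i.hom (OpSub.memD_push hS hA' _ hx)
        (Quo.relD_push hS hA' _ hx hxt)⟩

end tensorS

/-! ### `R ⊗ D` -/

section tensorR

variable [MonObj R] (c : BasR R) (L : ModStr R D)

/-- the coordinates `R ⟶ S j ⊗ R` -/
noncomputable def BasR.eps (j : c.J) : R ⟶ c.S j ⊗ R :=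
  haveI := c.isIso
  (ru R R ≫ inv (rb (ModStr.self R) (Sigma.desc c.w))) ≫ cpr c.S j ▷ R

theorem rb_ru_inv' {V Q N : T} (L : ModStr R N) (g : V ⟶ Q ⊗ R) [IsIso (rb (ModStr.self R) g)]
    [IsIso (rb L g)] : rb L (ru R Q ≫ inv (rb (ModStr.self R) g)) = inv (rb L g) := by
  rw [← cancel_mono (rb L g), rb_rb, Category.assoc, IsIso.inv_hom_id, Category.comp_id, rb_ru,
    IsIso.inv_hom_id]

theorem BasR.rb_eps (j : c.J) : haveI := isIso_rb L (Sigma.desc c.w) c.isIso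
    rb L (c.eps j) = inv (rb L (Sigma.desc c.w)) ≫ cpr c.S j ▷ D := by
  have := c.isIso
  have := isIso_rb L (Sigma.desc c.w) c.isIso
  rw [BasR.eps, rb_whiskerRight, rb_ru_inv']

/-- the expansion of an element of `π_* ((R ⊗ D) ⊗ Z)` -/
theorem BasR.expand (hA : IsSphere A) (z : A ⟶ (R ⊗ D) ⊗ Z) : ∃ s : Finset c.J,
    z = ∑ j ∈ s, (z ≫ rb L (c.eps j) ▷ Z) ≫ rb L (c.w j) ▷ Z := by
  have := isIso_rb L (Sigma.desc c.w) c.isIso
  obtain ⟨s, hs⟩ := sum_cpr c.S hA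
    (z ≫ inv (rb L (Sigma.desc c.w)) ▷ Z ≫ (α_ (∐ c.S) D Z).hom)
  refine ⟨s, ?_⟩
  have h1 : z = (z ≫ inv (rb L (Sigma.desc c.w)) ▷ Z ≫ (α_ (∐ c.S) D Z).hom) ≫
      (α_ (∐ c.S) D Z).inv ≫ rb L (Sigma.desc c.w) ▷ Z := by
    simp only [Category.assoc, Iso.hom_inv_id_assoc]
    rw [← comp_whiskerRight, IsIso.inv_hom_id, id_whiskerRight, Category.comp_id]
  conv_lhs => rw [h1, hs, Preadditive.sum_comp]
  refine Finset.sum_congr rfl fun j _ => ?_
  rw [c.rb_eps L j]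
  have h2 : Sigma.ι c.S j ▷ D ≫ rb L (Sigma.desc c.w) = rb L (c.w j) := by
    rw [← comp_rb, Sigma.ι_desc]
  rw [← h2]
  simp only [Category.assoc, comp_whiskerRight]
  rw [associator_inv_naturality_left_assoc, ← associator_naturality_left_assoc,
    Iso.hom_inv_id_assoc]

theorem NiceD.tensorR (h : NiceD R D) (c : BasR R) (L : ModStr R D) : NiceD R (R ⊗ D) where
  uniq {A Z} hA z hz := by
    obtain ⟨s, hs⟩ := c.expand L hA z
    rw [hs]
    refine Finset.sum_eq_zero fun j _ => ?_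
    have h1 : z ≫ rb L (c.eps j) ▷ Z = 0 := (h.tensorS (c.sph j)).uniq hA _ fun B hB e => by
      rw [← push_whiskerLeft]
      exact hz B hB _
    rw [h1, zero_comp]
  ex {A X Y G} q hA z hz := by
    obtain ⟨s, hs⟩ := c.expand L hA z
    have h1 : ∀ j, G.memD (z ≫ rb L (c.eps j) ▷ X) := fun j => OpSub.memD_map _ hz
    choose t ht using fun j => (h.tensorS (c.sph j)).ex q hA _ (h1 j)
    refine ⟨∑ j ∈ s, t j ≫ rb L (c.w j) ▷ Y, ?_⟩
    rw [hs]
    exact Quo.relD_sum hA s _ _ (fun j _ => OpSub.memD_map _ (h1 j)) fun j _ =>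
      Quo.relD_map _ (ht j)
  sur {A X Y G} q hA t := by
    obtain ⟨s, hs⟩ := c.expand L hA t
    choose z hz hzt using fun j => (h.tensorS (c.sph j)).sur q hA (t ≫ rb L (c.eps j) ▷ Y)
    refine ⟨∑ j ∈ s, z j ≫ rb L (c.w j) ▷ X,
      OpSub.memD_sum hA s _ fun j _ => OpSub.memD_map _ (hz j), ?_⟩
    rw [hs]
    exact Quo.relD_sum hA s _ _ (fun j _ => OpSub.memD_map _ (hz j)) fun j _ =>
      Quo.relD_map _ (hzt j)

end tensorR

end Vale.Agent.P221.E
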