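import Vale.Agent.P221.E.DefsD

/-!
# P221, part E (helper903): spheres, `push`
-/

open CategoryTheory MonoidalCategory MonObj Limits Pretriangulated
open Vale.Agent.P251.S Vale.Agent.P251.T Vale.Agent.P251.M Vale.Agent.P093.Nak

set_option linter.unusedSectionVars false

universe u

namespace Vale.Agent.P221.E

section mon

variable {T : Type u} [Category.{0} T] [MonoidalCategory T] {S S' S₁ S₂ D D' D'' D₁ A A' X X' : T}

theorem push_comp_left (e : S ⊗ D ⟶ D') (u : A' ⟶ A) (z : A ⟶ D ⊗ X) :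
    push e (u ≫ z) = S ◁ u ≫ push e z := by
  unfold push
  rw [MonoidalCategory.whiskerLeft_comp, Category.assoc]

theorem push_comp_right (e : S ⊗ D ⟶ D') (h : D' ⟶ D'') (z : A ⟶ D ⊗ X) :
    push (e ≫ h) z = push e z ≫ h ▷ X := by
  unfold push
  rw [comp_whiskerRight, Category.assoc, Category.assoc]

theorem push_whiskerLeft (h : D ⟶ D₁) (e : S ⊗ D₁ ⟶ D') (z : A ⟶ D ⊗ X) :
    push (S ◁ h ≫ e) z = push e (z ≫ h ▷ X) := by
  unfold push
  rw [comp_whiskerRight, MonoidalCategory.whiskerLeft_comp, Category.assoc,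
    associator_inv_naturality_middle_assoc]

theorem push_whiskerRight (v : S' ⟶ S) (e : S ⊗ D ⟶ D') (z : A ⟶ D ⊗ X) :
    push (v ▷ D ≫ e) z = v ▷ A ≫ push e z := by
  unfold push
  rw [comp_whiskerRight, ← whisker_exchange_assoc, associator_inv_naturality_left_assoc]

theorem push_push (e₁ : S₁ ⊗ D ⟶ D') (e₂ : S₂ ⊗ D' ⟶ D'') (z : A ⟶ D ⊗ X) :
    push e₂ (push e₁ z) =
      (α_ S₂ S₁ A).inv ≫ push ((α_ S₂ S₁ D).hom ≫ S₂ ◁ e₁ ≫ e₂) z := by
  unfold push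
  simp only [comp_whiskerRight, MonoidalCategory.whiskerLeft_comp, Category.assoc,
    tensor_whiskerLeft]
  simp

theorem push_comp_X (e : S ⊗ D ⟶ D') (z : A ⟶ D ⊗ X) (f : X ⟶ X') :
    push e (z ≫ D ◁ f) = push e z ≫ D' ◁ f := by
  unfold push
  rw [MonoidalCategory.whiskerLeft_comp, Category.assoc, Category.assoc, Category.assoc,
    associator_inv_naturality_right_assoc, whisker_exchange]

end mon

variable {T : Type u} [Category.{0} T] [Preadditive T] [HasZeroObject T]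
    [HasShift T ℤ] [∀ n : ℤ, (shiftFunctor T n).Additive] [Pretriangulated T] [IsTriangulated T]
    [MonoidalCategory T] [SymmetricCategory T] [TensorTriangulated T] [MonoidalClosed T]
    [HasCoproducts.{0} T] [HasProducts.{0} T] [StableCat T]

section add

variable {S D D' A X : T}

theorem push_sub (e : S ⊗ D ⟶ D') (z z' : A ⟶ D ⊗ X) :
    push e (z - z') = push e z - push e z' := by
  unfold push
  have h : S ◁ (z - z') = S ◁ z - S ◁ z' := (tensorLeft S).map_sub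
  rw [h, Preadditive.sub_comp]

theorem push_add (e : S ⊗ D ⟶ D') (z z' : A ⟶ D ⊗ X) :
    push e (z + z') = push e z + push e z' := by
  unfold push
  rw [MonoidalPreadditive.whiskerLeft_add, Preadditive.add_comp]

theorem push_zero' (e : S ⊗ D ⟶ D') : push e (0 : A ⟶ D ⊗ X) = 0 := by
  unfold push
  rw [MonoidalPreadditive.whiskerLeft_zero, zero_comp]

end add

/-! ### Spheres -/

theorem isInv_of_isSphere {A : T} (h : IsSphere A) : IsInv A := by
  obtain ⟨n, ⟨e⟩⟩ := h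
  have h1 : IsInv ((𝟙_ T)⟦n⟧) := by
    constructor
    have : (shiftFunctor T n).IsEquivalence := inferInstance
    exact Functor.isEquivalence_of_iso
      (NatIso.ofComponents (fun Y => (sphTensor n Y).symm)
        (fun {Y Z} f => by
          change f⟦n⟧' ≫ (sphTensor n Z).inv = (sphTensor n Y).inv ≫ ((𝟙_ T)⟦n⟧) ◁ f
          rw [Iso.comp_inv_eq, Category.assoc, sphTensor_naturality, Iso.inv_hom_id_assoc]) :
        shiftFunctor T n ≅ tensorLeft ((𝟙_ T)⟦n⟧))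
  exact IsInv.of_iso e.symm

theorem isSphere_tensor {A B : T} (h : IsSphere A) (h' : IsSphere B) : IsSphere (A ⊗ B) := by
  obtain ⟨n, ⟨e⟩⟩ := h
  obtain ⟨m, ⟨e'⟩⟩ := h'
  refine ⟨m + n, ⟨whiskerRightIso e B ≪≫ sphTensor n B ≪≫ (shiftFunctor T n).mapIso e' ≪≫
    (shiftFunctorAdd T m n).symm.app (𝟙_ T)⟩⟩

/-- `A ≅ S ⊗ A'` -/
theorem exists_left {S A : T} (hS : IsSphere S) (hA : IsSphere A) :
    ∃ A' : T, IsSphere A' ∧ Nonempty (A ≅ S ⊗ A') := by
  obtain ⟨n, ⟨e⟩⟩ := hS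
  obtain ⟨m, ⟨e'⟩⟩ := hA
  refine ⟨(𝟙_ T)⟦m - n⟧, isSphere_one_shift _, ⟨e' ≪≫ ?_⟩⟩
  exact (shiftFunctorAdd' T (m - n) n m (by omega)).app (𝟙_ T) ≪≫
    (sphTensor n ((𝟙_ T)⟦m - n⟧)).symm ≪≫ (whiskerRightIso e _).symm

/-- the inverse sphere -/
theorem exists_inv {S : T} (hS : IsSphere S) :
    ∃ S' : T, IsSphere S' ∧ Nonempty (S' ⊗ S ≅ 𝟙_ T) := by
  obtain ⟨A', hA', ⟨e⟩⟩ := exists_left hS (isSphere_one (T := T))
  exact ⟨A', hA', ⟨(β_ _ _) ≪≫ e.symm⟩⟩

theorem whiskerLeft_inj' {S : T} (hS : IsSphere S) {X Y : T} {f g : X ⟶ Y}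
    (h : S ◁ f = S ◁ g) : f = g := by
  have := isInv_of_isSphere hS
  exact whiskerLeft_inj S h

theorem whiskerLeft_surj' {S : T} (hS : IsSphere S) {X Y : T} (h : S ⊗ X ⟶ S ⊗ Y) :
    ∃ f : X ⟶ Y, S ◁ f = h := by
  have := isInv_of_isSphere hS
  exact whiskerLeft_surj S h

/-- a map `A ⟶ S ⊗ Z`, `A`, `S` spheres, is `S ◁ x`, up to an isomorphism -/
theorem exists_desusp {S A Z : T} (hS : IsSphere S) (hA : IsSphere A) (g : A ⟶ S ⊗ Z) :
    ∃ (A' : T) (_ : IsSphere A') (i : A ≅ S ⊗ A') (x : A' ⟶ Z), g = i.hom ≫ S ◁ x := by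
  obtain ⟨A', hA', ⟨i⟩⟩ := exists_left hS hA
  obtain ⟨x, hx⟩ := whiskerLeft_surj' hS (i.inv ≫ g)
  exact ⟨A', hA', i, x, by rw [hx, Iso.hom_inv_id_assoc]⟩

end Vale.Agent.P221.E
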