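import Vale.Agent.P221.E.H903.Nice

/-!
# P221, part E (helper903): subobjects of `[W, D ⊗ X]`, `R ⊗ W` free over `R`, `D` an `R`-module

* `up R f`, `OpSub.memW`, `Quo.RelW`;
* `FreeOn.exists_relW`, `FreeOn.surjW`, `FreeOn.uniqW`, `FreeOn.relW_unique`.
-/

open CategoryTheory MonoidalCategory MonObj Limits Pretriangulated
open Vale.Agent.P251.S Vale.Agent.P251.T Vale.Agent.P251.M Vale.Agent.P093.Nak
open Vale.Agent.P221.H658 (rb ru comp_rb rb_rb rb_whiskerRight isIso_rb rb_ru)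

set_option linter.unusedSectionVars false
set_option linter.unusedVariables false

universe u

namespace Vale.Agent.P221.E

variable {T : Type u} [Category.{0} T] [Preadditive T] [HasZeroObject T]
    [HasShift T ℤ] [∀ n : ℤ, (shiftFunctor T n).Additive] [Pretriangulated T] [IsTriangulated T]
    [MonoidalCategory T] [SymmetricCategory T] [TensorTriangulated T] [MonoidalClosed T]
    [HasCoproducts.{0} T] [HasProducts.{0} T] [StableCat T]

variable {R D D' S A X Y Z W : T}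

/-- `R ⊗ W ⟶ (R ⊗ D) ⊗ Z` -/
def up (R : T) (f : W ⟶ D ⊗ Z) : R ⊗ W ⟶ (R ⊗ D) ⊗ Z := R ◁ f ≫ (α_ R D Z).inv

/-- the subgroup of `[W, D ⊗ X]` -/
def OpSub.memW (G : OpSub R X) (f : W ⟶ D ⊗ X) : Prop :=
  ∀ A : T, IsSphere A → ∀ w : A ⟶ R ⊗ W, G.memD (w ≫ up R f)

/-- `g : W ⟶ D ⊗ Y` is the image of `f : W ⟶ D ⊗ X` -/
def Quo.RelW {G : OpSub R X} (q : Quo G Y) (f : W ⟶ D ⊗ X) (g : W ⟶ D ⊗ Y) : Prop :=
  ∀ A : T, IsSphere A → ∀ w : A ⟶ R ⊗ W, q.RelD (w ≫ up R f) (w ≫ up R g)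

theorem up_sub (f f' : W ⟶ D ⊗ Z) : up R (f - f') = up R f - up R f' := by
  unfold up
  have h : R ◁ (f - f') = R ◁ f - R ◁ f' := (tensorLeft R).map_sub
  rw [h, Preadditive.sub_comp]

theorem up_zero : up R (0 : W ⟶ D ⊗ Z) = 0 := by
  unfold up
  rw [MonoidalPreadditive.whiskerLeft_zero, zero_comp]

theorem up_map (f : W ⟶ D ⊗ Z) (h : D ⟶ D') : up R (f ≫ h ▷ Z) = up R f ≫ (R ◁ h) ▷ Z := by
  unfold up
  rw [MonoidalCategory.whiskerLeft_comp, Category.assoc, Category.assoc,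
    associator_inv_naturality_middle]

section formal

variable {G : OpSub R X} {q : Quo G Y}

theorem OpSub.memW_zero (G : OpSub R X) : G.memW (0 : W ⟶ D ⊗ X) := fun A hA w => by
  rw [up_zero, comp_zero]
  exact G.memD_zero hA

theorem OpSub.memW_sub {f f' : W ⟶ D ⊗ X} (h : G.memW f) (h' : G.memW f') :
    G.memW (f - f') := fun A hA w => by
  rw [up_sub, Preadditive.comp_sub]
  exact OpSub.memD_sub hA (h A hA w) (h' A hA w)

theorem OpSub.memW_add {f f' : W ⟶ D ⊗ X} (h : G.memW f) (h' : G.memW f') :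
    G.memW (f + f') := by
  have h1 := OpSub.memW_sub h (OpSub.memW_sub G.memW_zero h')
  rwa [zero_sub, sub_neg_eq_add] at h1

theorem OpSub.memW_map {f : W ⟶ D ⊗ X} (h : D ⟶ D') (hf : G.memW f) : G.memW (f ≫ h ▷ X) :=
  fun A hA w => by
  rw [up_map, ← Category.assoc]
  exact OpSub.memD_map _ (hf A hA w)

theorem Quo.relW_zero (q : Quo G Y) : q.RelW (0 : W ⟶ D ⊗ X) 0 := fun A hA w => by
  rw [up_zero, up_zero, comp_zero, comp_zero]
  exact q.relD_zero hA

theorem Quo.relW_sub {f f' : W ⟶ D ⊗ X} {g g' : W ⟶ D ⊗ Y} (hf : G.memW f) (hf' : G.memW f')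
    (h : q.RelW f g) (h' : q.RelW f' g') : q.RelW (f - f') (g - g') := fun A hA w => by
  rw [up_sub, up_sub, Preadditive.comp_sub, Preadditive.comp_sub]
  exact Quo.relD_sub hA (hf A hA w) (hf' A hA w) (h A hA w) (h' A hA w)

theorem Quo.relW_map {f : W ⟶ D ⊗ X} {g : W ⟶ D ⊗ Y} (h : D ⟶ D') (hf : q.RelW f g) :
    q.RelW (f ≫ h ▷ X) (g ≫ h ▷ Y) := fun A hA w => by
  rw [up_map, up_map, ← Category.assoc, ← Category.assoc]
  exact Quo.relD_map _ (hf A hA w)

theorem Quo.relW_zero_iff {f : W ⟶ D ⊗ X} (hf : G.memW f) : q.RelW f 0 ↔ q.ker.memW f := by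
  constructor
  · intro h A hA w
    have h1 := h A hA w
    rw [up_zero, comp_zero] at h1
    exact (Quo.relD_zero_iff (hf A hA w)).1 h1
  · intro h A hA w
    rw [up_zero, comp_zero]
    exact (Quo.relD_zero_iff (hf A hA w)).2 (h A hA w)

theorem Quo.memW_of_ker {f : W ⟶ D ⊗ X} (h : q.ker.memW f) : G.memW f :=
  fun A hA w => Quo.memD_of_ker (h A hA w)

end formal

variable [MonObj R]

/-! ### Bases -/

namespace FreeOn

variable {N : T}

theorem isIso' (b : FreeOn R W) : IsIso (lin (ModStr.free R W) (Sigma.desc b.w)) :=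
  (isIso_desc_iff _ _).1 b.isIso

theorem hom_ext (b : FreeOn R W) (M : ModStr R N) {f f' : W ⟶ N}
    (h : ∀ j, b.w j ≫ lin M f = b.w j ≫ lin M f') : f = f' := by
  have := b.isIso'
  have h1 : lin M f = lin M f' := by
    rw [← cancel_epi (lin (ModStr.free R W) (Sigma.desc b.w)), lin_lin, lin_lin]
    congr 1
    refine Sigma.hom_ext _ _ fun j => ?_
    rw [Sigma.ι_desc_assoc, Sigma.ι_desc_assoc, h]
  rw [← un_lin M f, h1, un_lin]

theorem exists_realize (b : FreeOn R W) (M : ModStr R N) (m : ∀ j, b.S j ⟶ N) :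
    ∃ f : W ⟶ N, ∀ j, b.w j ≫ lin M f = m j := by
  have := b.isIso'
  let g : R ⊗ W ⟶ N := inv (lin (ModStr.free R W) (Sigma.desc b.w)) ≫ lin M (Sigma.desc m)
  have hg : (ModStr.free R W).IsLinear M g :=
    isLinear_comp _ _ (isLinear_inv _ _ (lin_isLinear (ModStr.free R W) (Sigma.desc b.w)))
      (lin_isLinear M (Sigma.desc m))
  refine ⟨un R W ≫ g, fun j => ?_⟩
  rw [lin_un M g hg]
  have h1 : lin (ModStr.free R W) (Sigma.desc b.w) ≫ g = lin M (Sigma.desc m) := by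
    simp [g]
  have h2 := congrArg (fun z => Sigma.ι b.S j ≫ un R _ ≫ z) h1
  rw [un_lin_assoc, un_lin, Sigma.ι_desc_assoc, Sigma.ι_desc] at h2
  exact h2

/-- the expansion of an element of `π_* (R ⊗ W)` -/
theorem expand (b : FreeOn R W) (hA : IsSphere A) (w : A ⟶ R ⊗ W) :
    ∃ (s : Finset b.J) (a : ∀ j, A ⟶ R ⊗ b.S j),
      w = ∑ j ∈ s, a j ≫ lin (ModStr.free R W) (b.w j) := by
  have := b.isIso
  obtain ⟨s, a, ha⟩ := compact_sum (fun j => R ⊗ b.S j) hA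
    (w ≫ inv (Sigma.desc fun j => lin (ModStr.free R W) (b.w j)))
  refine ⟨s, a, ?_⟩
  rw [IsIso.comp_inv_eq] at ha
  rw [ha, Preadditive.sum_comp]
  refine Finset.sum_congr rfl fun j _ => ?_
  rw [Category.assoc, Sigma.ι_desc]

end FreeOn

/-- multiplication by an element of `π_* (R ⊗ S)` -/
theorem exists_lin_push (L : ModStr R D) (hS : IsSphere S) (hA : IsSphere A) (a : A ⟶ R ⊗ S) :
    ∃ (A' : T) (_ : IsSphere A') (k : A ⟶ A' ⊗ S) (e : A' ⊗ D ⟶ D),
      ∀ (Z : T) (x : S ⟶ D ⊗ Z), a ≫ lin (L.tensorRight Z) x = k ≫ push e x := by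
  obtain ⟨A', hA', i, r, hr⟩ := exists_desusp hS hA (a ≫ (β_ R S).hom)
  refine ⟨A', hA', i.hom ≫ (β_ S A').hom, r ▷ D ≫ L.act, fun Z x => ?_⟩
  have h1 : a = i.hom ≫ (β_ S A').hom ≫ r ▷ S := by
    rw [← BraidedCategory.braiding_naturality_right, ← Category.assoc, ← hr, Category.assoc,
      SymmetricCategory.symmetry, Category.comp_id]
  rw [h1]
  unfold lin push ModStr.tensorRight
  dsimp only
  simp only [Category.assoc, comp_whiskerRight]
  rw [← whisker_exchange_assoc, associator_inv_naturality_left_assoc]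

/-- the coordinates of `w ≫ up R f` -/
theorem exists_coord (c : BasR R) (L : ModStr R D) (hA : IsSphere A) (w : A ⟶ R ⊗ W) (j : c.J) :
    ∃ (A' : T) (_ : IsSphere A') (i : A ≅ c.S j ⊗ A') (w' : A' ⟶ R ⊗ W),
      ∀ (Z : T) (f : W ⟶ D ⊗ Z), (w ≫ up R f) ≫ rb L (c.eps j) ▷ Z =
        i.hom ≫ push (𝟙 (c.S j ⊗ D)) (w' ≫ lin (L.tensorRight Z) f) := by
  obtain ⟨A', hA', i, w', hw⟩ := exists_desusp (c.sph j) hA
    (w ≫ c.eps j ▷ W ≫ (α_ (c.S j) R W).hom)
  refine ⟨A', hA', i, w', fun Z f => ?_⟩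
  rw [push_comp_left, ← Category.assoc, ← hw]
  unfold up rb lin push ModStr.tensorRight
  dsimp only
  have h1 : R ◁ f ≫ c.eps j ▷ (D ⊗ Z) = c.eps j ▷ W ≫ (c.S j ⊗ R) ◁ f := by
    rw [whisker_exchange]
  simp only [Category.assoc, comp_whiskerRight, MonoidalCategory.whiskerLeft_comp,
    id_whiskerRight, Category.comp_id]
  rw [← associator_inv_naturality_left_assoc, reassoc_of% h1]
  simp

section main

variable {G : OpSub R X} {q : Quo G Y}

theorem lin_eq_up (L : ModStr R D) (w : A ⟶ R ⊗ W) (f : W ⟶ D ⊗ Z) :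
    w ≫ lin (L.tensorRight Z) f = (w ≫ up R f) ≫ L.act ▷ Z := by
  unfold up lin ModStr.tensorRight
  dsimp only
  simp only [Category.assoc]

theorem memW_iff (c : BasR R) (L : ModStr R D) {f : W ⟶ D ⊗ X} :
    G.memW f ↔ ∀ A : T, IsSphere A → ∀ w : A ⟶ R ⊗ W,
      G.memD (w ≫ lin (L.tensorRight X) f) := by
  constructor
  · intro h A hA w
    rw [lin_eq_up]
    exact OpSub.memD_map _ (h A hA w)
  · intro h A hA w
    obtain ⟨s, hs⟩ := c.expand L hA (w ≫ up R f)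
    rw [hs]
    refine OpSub.memD_sum hA s _ fun j _ => OpSub.memD_map _ ?_
    obtain ⟨A', hA', i, w', hw'⟩ := exists_coord (D := D) c L hA w j
    rw [hw']
    exact OpSub.memD_comp (isSphere_tensor (c.sph j) hA') hA _
      (OpSub.memD_push (c.sph j) hA' _ (h A' hA' w'))

theorem relW_of_lin (hD : NiceD R D) (c : BasR R) (L : ModStr R D) {f : W ⟶ D ⊗ X}
    {g : W ⟶ D ⊗ Y} (hf : G.memW f) (h : ∀ A : T, IsSphere A → ∀ w : A ⟶ R ⊗ W,
      q.RelD (w ≫ lin (L.tensorRight X) f) (w ≫ lin (L.tensorRight Y) g)) : q.RelW f g := by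
  intro A hA w
  obtain ⟨t, ht⟩ := (hD.tensorR c L).ex q hA _ (hf A hA w)
  have h1 : t = w ≫ up R g := by
    rw [← sub_eq_zero]
    obtain ⟨s, hs⟩ := c.expand L hA (t - w ≫ up R g)
    rw [hs]
    refine Finset.sum_eq_zero fun j _ => ?_
    have h2 : (t - w ≫ up R g) ≫ rb L (c.eps j) ▷ Y = 0 := by
      rw [Preadditive.sub_comp, sub_eq_zero]
      refine (hD.tensorS (c.sph j)).unique q hA (Quo.relD_map _ ht) ?_
      obtain ⟨A', hA', i, w', hw'⟩ := exists_coord (D := D) c L hA w j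
      rw [hw', hw']
      have h3 : G.memD (w' ≫ lin (L.tensorRight X) f) := (memW_iff c L).1 hf A' hA' w'
      exact Quo.relD_comp (isSphere_tensor (c.sph j) hA') hA _
        (OpSub.memD_push (c.sph j) hA' _ h3)
        (Quo.relD_push (c.sph j) hA' _ h3 (h A' hA' w'))
    rw [h2, zero_comp]
  rw [← h1]
  exact ht

/-- from the basis to all elements -/
theorem FreeOn.all (b : FreeOn R W) (L : ModStr R D) {f : W ⟶ D ⊗ X} {g : W ⟶ D ⊗ Y}
    (h : ∀ j, G.memD (b.w j ≫ lin (L.tensorRight X) f) ∧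
      q.RelD (b.w j ≫ lin (L.tensorRight X) f) (b.w j ≫ lin (L.tensorRight Y) g)) :
    ∀ A : T, IsSphere A → ∀ w : A ⟶ R ⊗ W, G.memD (w ≫ lin (L.tensorRight X) f) ∧
      q.RelD (w ≫ lin (L.tensorRight X) f) (w ≫ lin (L.tensorRight Y) g) := by
  intro A hA w
  obtain ⟨s, a, hs⟩ := b.expand hA w
  have h1 : ∀ (Z : T) (f : W ⟶ D ⊗ Z), w ≫ lin (L.tensorRight Z) f =
      ∑ j ∈ s, a j ≫ lin (L.tensorRight Z) (b.w j ≫ lin (L.tensorRight Z) f) := by
    intro Z f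
    rw [hs, Preadditive.sum_comp]
    refine Finset.sum_congr rfl fun j _ => ?_
    rw [Category.assoc, lin_lin]
  choose A' hA' k e hk using fun j => exists_lin_push L (b.sph j) hA (a j)
  have h2 : ∀ (Z : T) (f : W ⟶ D ⊗ Z), w ≫ lin (L.tensorRight Z) f =
      ∑ j ∈ s, k j ≫ push (e j) (b.w j ≫ lin (L.tensorRight Z) f) := by
    intro Z f
    rw [h1]
    exact Finset.sum_congr rfl fun j _ => hk j Z _
  rw [h2, h2]
  have h3 : ∀ j, G.memD (k j ≫ push (e j) (b.w j ≫ lin (L.tensorRight X) f)) := fun j =>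
    OpSub.memD_comp (isSphere_tensor (hA' j) (b.sph j)) hA _
      (OpSub.memD_push (hA' j) (b.sph j) _ (h j).1)
  exact ⟨OpSub.memD_sum hA s _ fun j _ => h3 j, Quo.relD_sum hA s _ _ (fun j _ => h3 j)
    fun j _ => Quo.relD_comp (isSphere_tensor (hA' j) (b.sph j)) hA _
      (OpSub.memD_push (hA' j) (b.sph j) _ (h j).1)
      (Quo.relD_push (hA' j) (b.sph j) _ (h j).1 (h j).2)⟩

theorem FreeOn.uniqW (b : FreeOn R W) (L : ModStr R D) {f : W ⟶ D ⊗ Z}
    (h : ∀ A : T, IsSphere A → ∀ w : A ⟶ R ⊗ W, w ≫ up R f = 0) : f = 0 := by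
  refine b.hom_ext (L.tensorRight Z) fun j => ?_
  rw [lin_eq_up, lin_eq_up, h _ (b.sph j), up_zero, comp_zero]

theorem FreeOn.relW_unique (b : FreeOn R W) (hD : NiceD R D) (c : BasR R) (L : ModStr R D)
    {f : W ⟶ D ⊗ X} {g g' : W ⟶ D ⊗ Y} (h : q.RelW f g) (h' : q.RelW f g') : g = g' := by
  rw [← sub_eq_zero]
  refine b.uniqW L fun A hA w => ?_
  rw [up_sub, Preadditive.comp_sub, sub_eq_zero]
  exact (hD.tensorR c L).unique q hA (h A hA w) (h' A hA w)

theorem FreeOn.exists_relW (b : FreeOn R W) (hD : NiceD R D) (c : BasR R) (L : ModStr R D)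
    {f : W ⟶ D ⊗ X} (hf : G.memW f) : ∃ g : W ⟶ D ⊗ Y, q.RelW f g := by
  have h1 := (memW_iff c L).1 hf
  choose y hy using fun j => hD.ex q (b.sph j) _ (h1 _ (b.sph j) (b.w j))
  obtain ⟨g, hg⟩ := b.exists_realize (L.tensorRight Y) y
  refine ⟨g, relW_of_lin hD c L hf fun A hA w => ?_⟩
  exact (b.all L (fun j => ⟨h1 _ (b.sph j) (b.w j), by rw [hg]; exact hy j⟩) A hA w).2

theorem FreeOn.surjW (b : FreeOn R W) (hD : NiceD R D) (c : BasR R) (L : ModStr R D)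
    (q : Quo G Y) (g : W ⟶ D ⊗ Y) : ∃ f : W ⟶ D ⊗ X, G.memW f ∧ q.RelW f g := by
  choose x hx hxg using fun j => hD.sur q (b.sph j) (b.w j ≫ lin (L.tensorRight Y) g)
  obtain ⟨f, hf⟩ := b.exists_realize (L.tensorRight X) x
  have h1 := b.all (q := q) L (f := f) (g := g) fun j => by
    rw [hf]
    exact ⟨hx j, hxg j⟩
  have h2 : G.memW f := (memW_iff c L).2 fun A hA w => (h1 A hA w).1
  exact ⟨f, h2, relW_of_lin hD c L h2 fun A hA w => (h1 A hA w).2⟩

end main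

end Vale.Agent.P221.E
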